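import Vale.Agent.P167.OrbA

/-! The oriented loop expansion of the six-vertex weights. -/

open Vale.Agent.P152

noncomputable section

namespace Vale.Agent.P167

/-- Compatibility of the relative orientations with a pairing. -/
def cp (b l d u r : Bool) : Prop := if b = true then l = u ∧ r = d else l = d ∧ r = u

instance cpDec (b l d u r : Bool) : Decidable (cp b l d u r) := by unfold cp; infer_instance

theorem wt_loc {c : ℝ} {w : ℤ → ℂ} (h0 : w 0 = 1) (h2 : w 2 + w (-2) = c) (E l d u r : Bool) :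
    (wt 1 1 c l d u r : ℂ) = ∑ b : Bool,
      if cp (b == E) (((!E) == true) == l) (((!E) == false) == d) ((E == false) == u) ((E == true) == r) then
        w (-sg b * (sg (((!E) == true) == l) + sg ((E == true) == r))) else 0 := by
  have h3 : w (-2) + w 2 = c := by rw [add_comm, h2]
  cases E <;> cases l <;> cases d <;> cases u <;> cases r <;> simp [wt, cp, sg, h0] <;>
    first | exact h2.symm | exact h3.symm

variable {M L : ℕ} [NeZero M] [NeZero L]

/-- Orientation relative to the canonical one. -/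
def rel (ω : Cfg (ZMod M) (ZMod L)) (e : Edge M L) : Bool := (ev e.1 e.2.1 == e.2.2) == ω e

/-- The orientation given by orienting the loops. -/
def ori (s : Conf M L) (ε : Loop s → Bool) : Cfg (ZMod M) (ZMod L) :=
  fun e => (ev e.1 e.2.1 == e.2.2) == ε (Quot.mk _ e)

/-- Compatibility of an orientation with a configuration. -/
def Cp (s : Conf M L) (ω : Cfg (ZMod M) (ZMod L)) (v : ZMod M × ZMod L) : Prop :=
  cp (s v == ev v.1 v.2) (rel ω (v.1 - 1, v.2, true)) (rel ω (v.1, v.2 - 1, false)) (rel ω (v.1, v.2, false))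
    (rel ω (v.1, v.2, true))

omit [NeZero M] [NeZero L] in
theorem rel_ori (s : Conf M L) (ε : Loop s → Bool) (e : Edge M L) : rel (ori s ε) e = ε (Quot.mk _ e) := by
  unfold rel ori
  cases (ev e.1 e.2.1 == e.2.2) <;> cases ε (Quot.mk _ e) <;> rfl

omit [NeZero M] [NeZero L] in
theorem ori_inj (s : Conf M L) : Function.Injective (ori s) := fun ε ε' h => by
  funext l
  obtain ⟨e, rfl⟩ := Quot.exists_rep l
  rw [← rel_ori s ε e, ← rel_ori s ε' e, h]

theorem cp_ori (s : Conf M L) (ε : Loop s → Bool) (v : ZMod M × ZMod L) : Cp s (ori s ε) v := by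
  have h := mk_pair s v.1 v.2
  unfold Cp cp
  simp only [rel_ori, beq_iff_eq]
  split_ifs at h ⊢
  · exact ⟨congrArg ε h.1, congrArg ε h.2⟩
  · exact ⟨congrArg ε h.1, congrArg ε h.2⟩

omit [NeZero M] [NeZero L] in
theorem ori_surj (s : Conf M L) {ω : Cfg (ZMod M) (ZMod L)} (h : ∀ v, Cp s ω v) : ω ∈ Set.range (ori s) := by
  refine ⟨Quot.lift (rel ω) fun e e' ⟨x, y, hj⟩ => ?_, ?_⟩
  · have := h (x, y)
    unfold Cp cp at this
    simp only [beq_iff_eq] at this
    split_ifs at this hj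
    · rcases hj with ⟨rfl, rfl⟩ | ⟨rfl, rfl⟩
      exacts [this.1, this.2]
    · rcases hj with ⟨rfl, rfl⟩ | ⟨rfl, rfl⟩
      exacts [this.1, this.2]
  · funext e
    change ((ev e.1 e.2.1 == e.2.2) == rel ω e) = ω e
    unfold rel
    cases (ev e.1 e.2.1 == e.2.2) <;> cases ω e <;> rfl

theorem sg_mk (s : Conf M L) (ε : Loop s → Bool) (e : Edge M L) :
    sg (ε (Quot.mk _ e)) = ∑ l, sg (ε l) * mem s l e := by
  classical
  simp [mem]

theorem sg_ori (s : Conf M L) (ε : Loop s → Bool) (e : Edge M L) :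
    sg (ori s ε e) = ∑ l, sg (ε l) * arr s l e := by
  simp only [arr, ← mul_assoc]
  rw [← Finset.sum_mul, ← sg_mk]
  unfold ori
  cases (ev e.1 e.2.1 == e.2.2) <;> cases ε (Quot.mk _ e) <;> rfl

theorem expo_ori (s : Conf M L) (ε : Loop s → Bool) :
    ∑ v : ZMod M × ZMod L, -sg (s v) * (sg (rel (ori s ε) (v.1 - 1, v.2, true)) + sg (rel (ori s ε) (v.1, v.2, true))) =
      ∑ l, sg (ε l) * turn s l := by
  simp only [rel_ori, sg_mk, turn, Finset.mul_sum, ← Finset.sum_add_distrib]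
  rw [Finset.sum_comm]
  refine Finset.sum_congr rfl fun l _ => Finset.sum_congr rfl fun v _ => by ring

theorem w_sum {w : ℤ → ℂ} (h0 : w 0 = 1) (ha : ∀ a b, w (a + b) = w a * w b) {ι : Type*} (t : Finset ι)
    (k : ι → ℤ) : ∏ i ∈ t, w (k i) = w (∑ i ∈ t, k i) := by
  classical
  induction t using Finset.induction_on with
  | empty => simp [h0]
  | insert i t hi ih => rw [Finset.prod_insert hi, Finset.sum_insert hi, ha, ih]

open Classical in
theorem expand (hM : Even M) (hL : Even L) {c : ℝ} {w : ℤ → ℂ} (h0 : w 0 = 1) (h2 : w 2 + w (-2) = c)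
    (ha : ∀ a b, w (a + b) = w a * w b) (Φ : Cfg (ZMod M) (ZMod L) → ℂ) :
    ∑ ω : Cfg (ZMod M) (ZMod L), ((∏ x, ∏ y, wt 1 1 c (ω (x - 1, y, true)) (ω (x, y - 1, false))
        (ω (x, y, false)) (ω (x, y, true)) : ℝ) : ℂ) * Φ ω =
      ∑ s : Conf M L, ∑ ε : Loop s → Bool, w (∑ l, sg (ε l) * turn s l) * Φ (ori s ε) := by
  have key : ∀ ω : Cfg (ZMod M) (ZMod L), ((∏ x, ∏ y, wt 1 1 c (ω (x - 1, y, true)) (ω (x, y - 1, false))
        (ω (x, y, false)) (ω (x, y, true)) : ℝ) : ℂ) = ∑ s : Conf M L, if ∀ v, Cp s ω v then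
      w (∑ v : ZMod M × ZMod L, -sg (s v) * (sg (rel ω (v.1 - 1, v.2, true)) + sg (rel ω (v.1, v.2, true))))
      else 0 := fun ω => by
    rw [← Fintype.prod_prod_type', Complex.ofReal_prod]
    have e1 : ∀ v : ZMod M × ZMod L, (wt 1 1 c (ω (v.1 - 1, v.2, true)) (ω (v.1, v.2 - 1, false))
        (ω (v.1, v.2, false)) (ω (v.1, v.2, true)) : ℂ) = ∑ b ∈ (Finset.univ : Finset Bool),
        if cp (b == ev v.1 v.2) (rel ω (v.1 - 1, v.2, true)) (rel ω (v.1, v.2 - 1, false))
          (rel ω (v.1, v.2, false)) (rel ω (v.1, v.2, true)) then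
        w (-sg b * (sg (rel ω (v.1 - 1, v.2, true)) + sg (rel ω (v.1, v.2, true)))) else 0 := fun v => by
      rw [wt_loc h0 h2 (ev v.1 v.2)]
      simp only [rel, ev_left hM hL, ev_down hM hL]
    simp only [e1]
    rw [Finset.prod_univ_sum, Fintype.piFinset_univ]
    refine Finset.sum_congr rfl fun s _ => ?_
    rw [Fintype.prod_ite_zero, w_sum h0 ha]
    congr
  simp only [key, Finset.sum_mul]
  rw [Finset.sum_comm]
  refine Finset.sum_congr rfl fun s _ => (Fintype.sum_of_injective (ori s) (ori_inj s) _ _ ?_ ?_).symm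
  · intro ω hω
    rw [if_neg fun h => hω (ori_surj s h), zero_mul]
  · intro ε
    rw [if_pos (cp_ori s ε), expo_ori]

end Vale.Agent.P167
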