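import Vale.Agent.P167.BkA
import Vale.Agent.P152.Basic

/-! Balanced orientations, tested heights and the factorisation over loops. -/

open MeasureTheory Vale.Agent.P152

noncomputable section

namespace Vale.Agent.P167

variable {M L : ℕ} [NeZero M] [NeZero L]

omit [NeZero M] in
theorem bal_iff (ξ : ZMod L → Bool) :
    2 * (Finset.univ.filter fun y => ξ y = true).card = L ↔ ∑ y, sg (ξ y) = 0 := by
  have h1 : ∀ y, sg (ξ y) = 2 * (if ξ y = true then 1 else 0) - 1 := fun y => by cases ξ y <;> simp [sg]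
  simp only [h1, Finset.sum_sub_distrib, ← Finset.mul_sum, Finset.sum_boole, Finset.sum_const,
    Finset.card_univ, ZMod.card, nsmul_eq_mul, mul_one]
  omega

theorem col_ori (s : Conf M L) (ε : Loop s → Bool) (x : ZMod M) :
    ∑ y, sg (ori s ε (x, y, true)) = ∑ l, sg (ε l) * col s l x := by
  simp only [sg_ori, col, Finset.mul_sum]
  rw [Finset.sum_comm]

theorem zsum_lin {ι : Type*} [Fintype ι] (a : ι → ℤ) (F : ι → ℤ → ℤ) (n : ℤ) :
    zsum (fun j => ∑ l, a l * F l j) n = ∑ l, a l * zsum (F l) n := by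
  simp only [zsum, mul_sub, Finset.sum_sub_distrib, Finset.mul_sum]
  rw [Finset.sum_comm, Finset.sum_comm (s := Finset.Ico n 0)]

theorem ht_ori (s : Conf M L) (ε : Loop s → Bool) (x : ℤ × ℤ) :
    ht (lft (ori s ε)) x = ∑ l, sg (ε l) * wind s l x := by
  simp only [ht, lft, sg_ori, wind, mul_sub, Finset.sum_sub_distrib, Int.cast_zero]
  rw [zsum_lin, zsum_lin]

omit [NeZero M] [NeZero L] in
theorem wind_le (s : Conf M L) (l : Loop s) (x : ℤ × ℤ) : |wind s l x| ≤ |x.1| + |x.2| := by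
  have h : ∀ e, |arr s l e| ≤ 1 := fun e => by
    unfold arr mem sg
    split_ifs <;> simp
  unfold wind
  refine (abs_sub _ _).trans ?_
  have h1 := zsum_abs_le (f := fun j => arr s l ((x.1 : ZMod M), ((j + 1 : ℤ) : ZMod L), true)) (fun _ => h _) x.2
  have h2 := zsum_abs_le (f := fun i => arr s l (((i + 1 : ℤ) : ZMod M), 0, false)) (fun _ => h _) x.1
  linarith

theorem int_lat {δ : ℝ} (hδ : 0 < δ) {f : ℂ → ℝ} (hf : Test f) {G : ℤ × ℤ → ℤ}
    (hG : ∀ x, |G x| ≤ |x.1| + |x.2|) :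
    Integrable fun z : ℂ => (G (⌊z.re / δ⌋, ⌊z.im / δ⌋) : ℝ) * f z := by
  have hc := hf.1.continuous
  have hi : Integrable fun z : ℂ => (2 * ‖z‖ / δ + 2) * ‖f z‖ :=
    Continuous.integrable_of_hasCompactSupport (by fun_prop) (hf.2.1.norm.mul_left)
  refine hi.mono' ?_ (Filter.Eventually.of_forall fun z => ?_)
  · exact (((measurable_of_countable fun x => (G x : ℝ)).comp (fc_meas δ)).mul
      hc.measurable).aestronglyMeasurable
  · rw [norm_mul]
    refine mul_le_mul_of_nonneg_right ?_ (norm_nonneg _)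
    have h' : |(G (⌊z.re / δ⌋, ⌊z.im / δ⌋) : ℝ)| ≤ |(⌊z.re / δ⌋ : ℝ)| + |(⌊z.im / δ⌋ : ℝ)| := by
      exact_mod_cast hG (⌊z.re / δ⌋, ⌊z.im / δ⌋)
    have k : ∀ t : ℝ, |t| ≤ ‖z‖ → |((⌊t / δ⌋ : ℤ) : ℝ)| ≤ ‖z‖ / δ + 1 := fun t ht => by
      have h1 := Int.floor_le (t / δ)
      have h2 := Int.lt_floor_add_one (t / δ)
      have h3 : |t / δ| ≤ ‖z‖ / δ := by
        rw [abs_div, abs_of_pos hδ]; exact div_le_div_of_nonneg_right ht hδ.le
      rw [abs_le] at h3 ⊢
      constructor <;> linarith [h3.1, h3.2]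
    have h1 := k _ (Complex.abs_re_le_norm z)
    have h2 := k _ (Complex.abs_im_le_norm z)
    have : 2 * ‖z‖ / δ = ‖z‖ / δ + ‖z‖ / δ := by ring
    rw [Real.norm_eq_abs]
    linarith

theorem fld_ori {δ : ℝ} (hδ : 0 < δ) {f : ℂ → ℝ} (hf : Test f) (s : Conf M L) (ε : Loop s → Bool) :
    fld δ f (lft (ori s ε)) = ∑ l, (sg (ε l) : ℝ) * mass δ f s l := by
  simp only [fld, mass, ht_ori, ← integral_const_mul]
  rw [← integral_finsetSum _ fun l _ => (int_lat hδ hf (wind_le s l)).const_mul _]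
  refine integral_congr_ae (Filter.Eventually.of_forall fun z => ?_)
  simp only [Int.cast_sum, Int.cast_mul, Finset.sum_mul, mul_assoc]

open Classical in
theorem factor (s : Conf M L) (θ : Loop s → ℝ) :
    (∑ ε : Loop s → Bool, if ∀ x, ∑ l, sg (ε l) * col s l x = 0 then
      Complex.exp ((∑ l, (sg (ε l) : ℝ) * θ l : ℝ) * Complex.I) else 0) =
    (∏ l ∈ Finset.univ.filter (Contr s), 2 * Real.cos (θ l) : ℝ) *
      ∑ ε ∈ Bal s, Complex.exp ((∑ l, (sg (ε l) : ℝ) * θ l.1 : ℝ) * Complex.I) := by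
  rw [← (Equiv.piEquivPiSubtypeProd (Contr s) fun _ => Bool).symm.sum_comp, Fintype.sum_prod_type_right,
    Bal, Finset.sum_filter, Finset.mul_sum]
  refine Finset.sum_congr rfl fun ε _ => ?_
  have h1 : ∀ (ε₁ : {l // Contr s l} → Bool) {R : Type} [AddCommMonoid R] (F : Loop s → Bool → R),
      ∑ l, F l ((Equiv.piEquivPiSubtypeProd (Contr s) fun _ => Bool).symm (ε₁, ε) l) =
        ∑ l : {l // Contr s l}, F l.1 (ε₁ l) + ∑ l : {l // ¬Contr s l}, F l.1 (ε l) := fun ε₁ R _ F => by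
    rw [← Fintype.sum_subtype_add_sum_subtype (Contr s)]
    congr 1 <;> refine Finset.sum_congr rfl fun l _ => ?_
    · simp [Equiv.piEquivPiSubtypeProd, l.2]
    · simp [Equiv.piEquivPiSubtypeProd, l.2]
  have h2 : ∀ (ε₁ : {l // Contr s l} → Bool) (x : ZMod M),
      ∑ l : {l // Contr s l}, sg (ε₁ l) * col s l.1 x = 0 := fun ε₁ x =>
    Finset.sum_eq_zero fun l _ => by rw [l.2.1 x, mul_zero]
  have h4 : ∀ (ε₁ : {l // Contr s l} → Bool) (x : ZMod M),
      ∑ l, sg ((Equiv.piEquivPiSubtypeProd (Contr s) fun _ => Bool).symm (ε₁, ε) l) * col s l x =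
        ∑ l : {l // ¬Contr s l}, sg (ε l) * col s l.1 x := fun ε₁ x => by
    rw [h1 ε₁ (fun l b => sg b * col s l x), h2, zero_add]
  simp only [h4, h1 _ (fun l b => (sg b : ℝ) * θ l)]
  split_ifs with h
  · have h3 : (∏ l ∈ Finset.univ.filter (Contr s), 2 * Real.cos (θ l) : ℝ) =
        ∏ l : {l // Contr s l}, ∑ b ∈ (Finset.univ : Finset Bool),
          Complex.exp (((sg b : ℝ) * θ l.1 : ℝ) * Complex.I) := by
      rw [Finset.prod_subtype (p := Contr s) (F := inferInstance) _ (by simp), Complex.ofReal_prod]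
      refine Finset.prod_congr rfl fun l _ => ?_
      simp [sg, Complex.two_cos]
    rw [h3, Finset.prod_univ_sum, Fintype.piFinset_univ, Finset.sum_mul]
    refine Finset.sum_congr rfl fun ε₁ _ => ?_
    rw [← Complex.exp_sum, ← Complex.exp_add, ← Finset.sum_mul, ← Complex.ofReal_sum, ← add_mul,
      ← Complex.ofReal_add]
  · simp

end Vale.Agent.P167
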