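import Vale.Agent.P167.OrbA

/-! Sums over a loop are sums along its lift.
`orb_sum`: `mem s l e = ∑ k ∈ range n, if e = edg .. k then 1 else 0` by `cover` and `inj`; swap the sums.
`orb_disp`: apply `orb_sum` to `φ e = if e.2.2 then sg (ev e.1 e.2.1 == e.2.2) else 0`; `φ (edg (p k) (K k)) = (d4 (K k)).1` by `par`, `ev_cast`, `ev_left`; telescope with `step`, `perp 0`.
`orb_turn`: let `hd e` be the head of `e` (`(x+1,y)` or `(x,y)` for `(x,y,true)` as `ev x y` is true or false; `(x,y)` or `(x,y+1)` for `(x,y,false)`), `hd (edg (p k) (K k)) = cast (p (k+1))`;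
`t = K n - K 0 = ∑ k, -sg (s (hd (E k))) = ∑ e, mem s l e * -sg (s (hd e))`; reindex by the head: at `(x,y)` with `ev x y` the incoming edges are `(x,y,false)`, `(x,y-1,false)` (use `mem_vert`),
otherwise `(x-1,y,true)`, `(x,y,true)`. -/

open Vale.Agent.P152

noncomputable section

namespace Vale.Agent.P167

variable {M L : ℕ} [NeZero M] [NeZero L] {s : Conf M L} {l : Loop s} {n : ℕ} {p : ℕ → ℤ × ℤ} {K : ℕ → ℤ}
  {D : ℤ × ℤ} {t : ℤ}

omit [NeZero M] [NeZero L] in
theorem orb_mem (h : Orb s l n p K D t) (e : Edge M L) :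
    mem s l e = ∑ k ∈ Finset.range n, if e = edg M L (p k) (K k) then 1 else 0 := by
  unfold mem
  by_cases he : (Quot.mk _ e : Loop s) = l
  · rw [if_pos he]
    obtain ⟨k0, hk0, rfl⟩ := (h.cover e).1 he
    rw [Finset.sum_eq_single k0]
    · simp
    · intro k hk hne
      rw [Finset.mem_range] at hk
      rw [if_neg]
      rcases lt_or_gt_of_ne hne with hlt | hlt
      · exact (h.inj k k0 hlt (by omega)).symm
      · exact h.inj k0 k hlt (by omega)
    · intro hk
      exact absurd (Finset.mem_range.2 hk0) hk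
  · rw [if_neg he]
    symm
    apply Finset.sum_eq_zero
    intro k hk
    rw [if_neg]
    intro hek
    exact he ((h.cover e).2 ⟨k, Finset.mem_range.1 hk, hek⟩)

theorem orb_sum (h : Orb s l n p K D t) (φ : Edge M L → ℤ) :
    ∑ e, mem s l e * φ e = ∑ k ∈ Finset.range n, φ (edg M L (p k) (K k)) := by
  simp_rw [orb_mem h, Finset.sum_mul]
  rw [Finset.sum_comm]
  refine Finset.sum_congr rfl fun k _ => ?_
  simp [ite_mul]

/-- The horizontal displacement along an edge. -/
def dispX (e : Edge M L) : ℤ := if e.2.2 then sg (ev e.1 e.2.1 == e.2.2) else 0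

/-- The vertical displacement along an edge. -/
def dispY (e : Edge M L) : ℤ := if e.2.2 then 0 else sg (ev e.1 e.2.1 == e.2.2)

/-- The head of an edge. -/
def hdE (e : Edge M L) : ZMod M × ZMod L :=
  if e.2.2 then (if ev e.1 e.2.1 then (e.1 + 1, e.2.1) else (e.1, e.2.1))
  else (if ev e.1 e.2.1 then (e.1, e.2.1) else (e.1, e.2.1 + 1))

theorem edg_facts (hM : Even M) (hL : Even L) (q : ℤ × ℤ) (k : ℤ) (hp : (q.1 + q.2 + k) % 2 = 0) :
    dispX (edg M L q k) = (d4 k).1 ∧ dispY (edg M L q k) = (d4 k).2 ∧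
      hdE (edg M L q k) = ((((q + d4 k).1 : ℤ) : ZMod M), (((q + d4 k).2 : ℤ) : ZMod L)) := by
  have hc := ev_cast hM hL q.1 q.2
  have h4 : k % 4 = 0 ∨ k % 4 = 1 ∨ k % 4 = 2 ∨ k % 4 = 3 := by omega
  rcases h4 with h4 | h4 | h4 | h4
  · have h2 : (q.1 + q.2) % 2 = 0 := by omega
    simp only [h2, decide_true] at hc
    simp [edg, d4, h4, dispX, dispY, hdE, hc, sg]
  · have h2 : ¬ (q.1 + q.2) % 2 = 0 := by omega
    simp only [h2, decide_false] at hc
    simp [edg, d4, h4, dispX, dispY, hdE, hc, sg]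
  · have h2 : (q.1 + q.2) % 2 = 0 := by omega
    simp only [h2, decide_true] at hc
    simp [edg, d4, h4, dispX, dispY, hdE, hc, sg, ev_left hM hL, ← sub_eq_add_neg]
  · have h2 : ¬ (q.1 + q.2) % 2 = 0 := by omega
    simp only [h2, decide_false] at hc
    simp [edg, d4, h4, dispX, dispY, hdE, hc, sg, ev_down hM hL, ← sub_eq_add_neg]

theorem sum_edge (F : Edge M L → ℤ) :
    ∑ e, F e = ∑ x, ∑ y, (F (x, y, true) + F (x, y, false)) := by
  rw [Fintype.sum_prod_type]
  refine Finset.sum_congr rfl fun x _ => ?_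
  rw [Fintype.sum_prod_type]
  refine Finset.sum_congr rfl fun y _ => ?_
  rw [Fintype.sum_bool]

theorem orb_disp (hM : Even M) (hL : Even L) (h : Orb s l n p K D t) :
    ∑ x, ∑ y, arr s l (x, y, true) = D.1 ∧ ∑ x, ∑ y, arr s l (x, y, false) = D.2 := by
  have hD : p n = p 0 + D := by simpa using h.perp 0
  constructor
  · have h1 := orb_sum h dispX
    rw [sum_edge] at h1
    have h2 : ∑ k ∈ Finset.range n, dispX (edg M L (p k) (K k)) =
        ∑ k ∈ Finset.range n, ((p (k + 1)).1 - (p k).1) := by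
      refine Finset.sum_congr rfl fun k _ => ?_
      rw [(edg_facts hM hL (p k) (K k) (h.par k)).1, h.step k]
      simp
    rw [h2, Finset.sum_range_sub (fun k => (p k).1), hD] at h1
    simpa [arr, dispX] using h1
  · have h1 := orb_sum h dispY
    rw [sum_edge] at h1
    have h2 : ∑ k ∈ Finset.range n, dispY (edg M L (p k) (K k)) =
        ∑ k ∈ Finset.range n, ((p (k + 1)).2 - (p k).2) := by
      refine Finset.sum_congr rfl fun k _ => ?_
      rw [(edg_facts hM hL (p k) (K k) (h.par k)).2.1, h.step k]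
      simp
    rw [h2, Finset.sum_range_sub (fun k => (p k).2), hD] at h1
    simpa [arr, dispY] using h1

theorem sum_head (hM : Even M) (hL : Even L) (s : Conf M L) (l : Loop s) (g : ZMod M × ZMod L → ℤ) :
    ∑ e, mem s l e * g (hdE e) =
      ∑ v : ZMod M × ZMod L, g v * (mem s l (v.1 - 1, v.2, true) + mem s l (v.1, v.2, true)) := by
  rw [sum_edge, Fintype.sum_prod_type]
  have hA : ∑ x, ∑ y, (if ev x y then mem s l (x, y, true) * g (x + 1, y) else 0) =
      ∑ x, ∑ y, (if ev x y then 0 else mem s l (x - 1, y, true) * g (x, y)) := by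
    rw [← Equiv.sum_comp (Equiv.subRight (1 : ZMod M))]
    refine Finset.sum_congr rfl fun x _ => Finset.sum_congr rfl fun y _ => ?_
    simp only [Equiv.subRight_apply, ev_left hM hL, sub_add_cancel]
    cases ev x y <;> simp
  have hB : ∑ x, ∑ y, (if ev x y then 0 else mem s l (x, y, false) * g (x, y + 1)) =
      ∑ x, ∑ y, (if ev x y then mem s l (x, y - 1, false) * g (x, y) else 0) := by
    refine Finset.sum_congr rfl fun x _ => ?_
    rw [← Equiv.sum_comp (Equiv.subRight (1 : ZMod L))]
    refine Finset.sum_congr rfl fun y _ => ?_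
    simp only [Equiv.subRight_apply, ev_down hM hL, sub_add_cancel]
    cases ev x y <;> simp
  have hC : ∑ x, ∑ y, (mem s l (x, y, true) * g (hdE (x, y, true)) +
        mem s l (x, y, false) * g (hdE (x, y, false))) =
      ∑ x, ∑ y, (if ev x y then mem s l (x, y, true) * g (x + 1, y) else 0) +
        ∑ x, ∑ y, (if ev x y then 0 else mem s l (x, y, false) * g (x, y + 1)) +
        ∑ x, ∑ y, (if ev x y then mem s l (x, y, false) * g (x, y)
          else mem s l (x, y, true) * g (x, y)) := by
    simp only [← Finset.sum_add_distrib]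
    refine Finset.sum_congr rfl fun x _ => Finset.sum_congr rfl fun y _ => ?_
    cases hev : ev x y <;> simp [hdE, hev, add_comm]
  rw [hC, hA, hB]
  simp only [← Finset.sum_add_distrib]
  refine Finset.sum_congr rfl fun x _ => Finset.sum_congr rfl fun y _ => ?_
  have hv := mem_vert s l x y
  cases hev : ev x y
  · simp only [Bool.false_eq_true, if_false]
    ring
  · simp only [if_true]
    rw [hv]
    ring

theorem orb_turn (hM : Even M) (hL : Even L) (h : Orb s l n p K D t) : turn s l = t := by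
  have hK : K n = K 0 + t := by simpa using h.perK 0
  have h1 := orb_sum h (fun e => -sg (s (hdE e)))
  rw [sum_head hM hL s l (fun v => -sg (s v))] at h1
  have h2 : ∑ k ∈ Finset.range n, -sg (s (hdE (edg M L (p k) (K k)))) =
      ∑ k ∈ Finset.range n, (K (k + 1) - K k) := by
    refine Finset.sum_congr rfl fun k _ => ?_
    rw [(edg_facts hM hL (p k) (K k) (h.par k)).2.2, h.rot k, h.step k]
    ring
  rw [h2, Finset.sum_range_sub, hK] at h1
  unfold turn
  rw [h1]
  ring

end Vale.Agent.P167
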