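import Vale.Agent.P167.Hop

/-! A simple periodic path of the square lattice with a nonzero period does not turn.
Hint: `g (l + N * n) = g l + N • D`, `J (l + N * n) = J l + N * t`. Let `φ v = D.1 * v.1 + D.2 * v.2`, `φ D ≥ 1`; `|φ (g l - g 0)| ≤ B` for `l ≤ n`.
With `K = 2 B + 1`: for `l ≥ K * n`, `0 < φ (g l - g 0)`, and for `l ≤ (N - K) * n`, `0 < -φ (g l - g (N * n + 1))` (enlarge `K` as needed).
`hopf4` with `i = 0`, `j = N * n`, `VV_split`, `VV_abs` on the ranges of length at most `(K + 1) * n + 1` and `VV_half` on the rest give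
`|(J 0 + N * t) / 2 - J 0 / 2| ≤ C` with `C` independent of `N`; take `N` large. -/

namespace Vale.Agent.P167

open Vale.P169

theorem hopf_open {g : ℕ → ℤ × ℤ} {J : ℕ → ℤ} {n : ℕ} {t : ℤ} {D : ℤ × ℤ} (hn : 0 < n) (hD : D ≠ 0)
    (hg : ∀ l, g (l + 1) = g l + d4 (J l)) (hJ : ∀ l, |J (l + 1) - J l| ≤ 1)
    (hgp : ∀ l, g (l + n) = g l + D) (hper : ∀ l, J (l + n) = J l + t)
    (hinj : ∀ l l', l < l' → g l ≠ g l') : t = 0 := by
  set ψ : ℕ → ℤ := fun l => D.1 * (g l).1 + D.2 * (g l).2 with hψ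
  set δ : ℤ := D.1 * D.1 + D.2 * D.2 with hδ
  have hδ1 : 1 ≤ δ := by
    have h1 := mul_self_nonneg D.1
    have h2 := mul_self_nonneg D.2
    by_contra hc
    have h3 : D.1 * D.1 = 0 := by omega
    have h4 : D.2 * D.2 = 0 := by omega
    exact hD (Prod.ext (mul_self_eq_zero.1 h3) (mul_self_eq_zero.1 h4))
  have hψp : ∀ (q l : ℕ), ψ (l + q * n) = ψ l + q * δ := by
    intro q l
    induction q with
    | zero => simp
    | succ q ih =>
      have e : l + (q + 1) * n = l + q * n + n := by ring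
      have e2 : ψ (l + q * n + n) = ψ (l + q * n) + δ := by
        simp only [hψ, hδ, hgp, Prod.fst_add, Prod.snd_add]; ring
      rw [e, e2, ih]; push_cast; ring
  have hJp : ∀ q : ℕ, J (q * n) = J 0 + q * t := by
    intro q
    induction q with
    | zero => simp
    | succ q ih =>
      have e : (q + 1) * n = q * n + n := by ring
      rw [e, hper, ih]; push_cast; ring
  obtain ⟨B, hB⟩ : ∃ B : ℕ, ∀ r, r < n → |ψ r - ψ 0| ≤ B := by
    refine ⟨∑ r ∈ Finset.range n, (ψ r - ψ 0).natAbs, fun r hr => ?_⟩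
    have h := Finset.single_le_sum (f := fun r => (ψ r - ψ 0).natAbs) (fun _ _ => Nat.zero_le _)
      (Finset.mem_range.2 hr)
    rw [← Int.natCast_natAbs]
    exact_mod_cast h
  have hdec : ∀ l, |ψ l - (l / n : ℕ) * δ - ψ 0| ≤ B := by
    intro l
    have h1 := hψp (l / n) (l % n)
    rw [Nat.mod_add_div'] at h1
    have h2 := hB (l % n) (Nat.mod_lt _ hn)
    have e : ψ l - (l / n : ℕ) * δ - ψ 0 = ψ (l % n) - ψ 0 := by rw [h1]; ring
    rw [e]; exact h2
  have hlow : ∀ (q l : ℕ), q * n ≤ l → ψ 0 - B + q * δ ≤ ψ l := by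
    intro q l h
    have h1 : q ≤ l / n := (Nat.le_div_iff_mul_le hn).2 h
    have h2 : (q : ℤ) * δ ≤ (l / n : ℕ) * δ :=
      mul_le_mul_of_nonneg_right (by exact_mod_cast h1) (by omega)
    have h3 := abs_le.1 (hdec l)
    linarith [h3.1]
  have hup : ∀ (q l : ℕ), l ≤ q * n → ψ l ≤ ψ 0 + B + q * δ := by
    intro q l h
    have h1 : l / n ≤ q := Nat.div_le_of_le_mul (by rw [mul_comm]; exact h)
    have h2 : ((l / n : ℕ) : ℤ) * δ ≤ q * δ :=
      mul_le_mul_of_nonneg_right (by exact_mod_cast h1) (by omega)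
    have h3 := abs_le.1 (hdec l)
    linarith [h3.2]
  obtain ⟨K, hK⟩ : ∃ K : ℕ, K = 2 * B + 1 := ⟨_, rfl⟩
  obtain ⟨M, hM⟩ : ∃ M : ℕ, M = 4 * (K * n) + 4 := ⟨_, rfl⟩
  have hKn : 1 ≤ K * n := Nat.mul_pos (by omega) hn
  have hKδ : (K : ℤ) ≤ K * δ := le_mul_of_one_le_right (by positivity) hδ1
  have hKB : (K : ℤ) = 2 * B + 1 := by exact_mod_cast hK
  have hNn : (M + K) * n = M * n + K * n := by ring
  have key := hopf4 hg (i := 0) (j := (M + K) * n) (Nat.zero_le _) hJ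
    (fun l l' _ h _ => hinj l l' h)
  rw [VV_split g (g 0) (show 0 + 1 ≤ K * n by omega) (show K * n ≤ (M + K) * n + 1 by omega),
    VV_split g (g ((M + K) * n + 1)) (Nat.zero_le (M * n)) (show M * n ≤ (M + K) * n by omega),
    hJp] at key
  have a1 := abs_le.1 (VV_abs g (g 0) (show 0 + 1 ≤ K * n by omega))
  have a2 := abs_le.1 (VV_half hg (g 0) D.1 D.2 (show K * n ≤ (M + K) * n + 1 by omega) (by
    intro l h1 _
    have h3 := hlow K l h1
    have e : D.1 * (g l - g 0).1 + D.2 * (g l - g 0).2 = ψ l - ψ 0 := by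
      simp only [hψ, Prod.fst_sub, Prod.snd_sub]; ring
    rw [e]; have : (0 : ℤ) ≤ B := by positivity
    linarith))
  have a3 := abs_le.1 (VV_half hg (g ((M + K) * n + 1)) (-D.1) (-D.2) (Nat.zero_le (M * n)) (by
    intro l _ h2
    have h3 := hup M l h2
    have h4 := hlow (M + K) ((M + K) * n + 1) (Nat.le_succ _)
    have e : -D.1 * (g l - g ((M + K) * n + 1)).1 + -D.2 * (g l - g ((M + K) * n + 1)).2
        = ψ ((M + K) * n + 1) - ψ l := by
      simp only [hψ, Prod.fst_sub, Prod.snd_sub]; ring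
    rw [e]
    have e2 : ((M + K : ℕ) : ℤ) * δ = M * δ + K * δ := by push_cast; ring
    linarith))
  have a4 := abs_le.1 (VV_abs g (g ((M + K) * n + 1)) (show M * n ≤ (M + K) * n by omega))
  have e3 : (((M + K) * n : ℕ) : ℤ) - (M * n : ℕ) = (K * n : ℕ) := by rw [hNn]; push_cast; ring
  rw [e3] at a4
  have hMz : (M : ℤ) = 4 * (K * n : ℕ) + 4 := by exact_mod_cast hM
  have hN : ((M + K : ℕ) : ℤ) = M + K := by push_cast; ring
  have hK0 : (0 : ℤ) ≤ K := by positivity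
  have hN0 : (0 : ℤ) ≤ ((M + K : ℕ) : ℤ) := by positivity
  by_contra ht
  rcases lt_or_gt_of_ne ht with h | h
  · have h5 : ((M + K : ℕ) : ℤ) * t ≤ ((M + K : ℕ) : ℤ) * (-1) :=
      mul_le_mul_of_nonneg_left (by omega) hN0
    generalize ((M + K : ℕ) : ℤ) * t = T at key h5
    generalize ((K * n : ℕ) : ℤ) = c at *
    omega
  · have h5 : ((M + K : ℕ) : ℤ) * 1 ≤ ((M + K : ℕ) : ℤ) * t :=
      mul_le_mul_of_nonneg_left (by omega) hN0
    generalize ((M + K : ℕ) : ℤ) * t = T at key h5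
    generalize ((K * n : ℕ) : ℤ) = c at *
    omega

end Vale.Agent.P167
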