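import Vale.Agent.P167.HopC
import Vale.Agent.P167.HopO

/-! The path of the midpoints of the edges, in the rotated lattice, is simple.
With `u = d4 (K k)` put `g k = ((p k).1 + (p k).2 + (u.1 + u.2 - 1) / 2, (p k).2 - (p k).1 + (u.2 - u.1 - 1) / 2)` and `J k = min (K k) (K (k + 1))`.
Then `g (k + 1) = g k + d4 (J k)` (cases on `K k % 4` and the sign in `rot`), `|J (k + 1) - J k| ≤ 1`, `J (k + n) = J k + t`; `t % 4 = 0` because
`p (k + n + 1) - p (k + n) = p (k + 1) - p k` gives `d4 (K k + t) = d4 (K k)`; so `g (k + n) = g k + (D.1 + D.2, D.2 - D.1)`. If `g k = g k'` then the doubled midpoints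
`2 • p k + d4 (K k)` agree, hence `edg` agree (cases on both directions). For `D ≠ 0`: write `k' = k + j * n + r`, `r < n`; `perE` iterated and `inj` force `r = 0`, then `j • D' = 0`. -/

open Vale.Agent.P152

noncomputable section

namespace Vale.Agent.P167

variable {M L : ℕ} [NeZero M] [NeZero L] {s : Conf M L} {l : Loop s} {n : ℕ} {p : ℕ → ℤ × ℤ} {K : ℕ → ℤ}
  {D : ℤ × ℤ} {t : ℤ}

/-- The midpoint of an edge in the rotated lattice. -/
def orbdG (q : ℤ × ℤ) (k : ℤ) : ℤ × ℤ :=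
  (q.1 + q.2 + ((d4 k).1 + (d4 k).2 - 1) / 2, q.2 - q.1 + ((d4 k).2 - (d4 k).1 - 1) / 2)

theorem orbd_cases (k : ℤ) : (k % 4 = 0 ∧ d4 k = (1, 0)) ∨ (k % 4 = 1 ∧ d4 k = (0, 1)) ∨
    (k % 4 = 2 ∧ d4 k = (-1, 0)) ∨ (k % 4 = 3 ∧ d4 k = (0, -1)) := by
  have h : k % 4 = 0 ∨ k % 4 = 1 ∨ k % 4 = 2 ∨ k % 4 = 3 := by omega
  rcases h with h | h | h | h <;> simp [d4, h]

theorem orbd_step (q : ℤ × ℤ) {k k' : ℤ} (h : k' = k + 1 ∨ k' = k - 1) :
    orbdG (q + d4 k) k' = orbdG q k + d4 (min k k') := by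
  have e : min k k' = k ∨ min k k' = k' := min_choice k k'
  have e1 := min_le_left k k'
  have e2 := min_le_right k k'
  rcases orbd_cases k with ⟨a, b⟩ | ⟨a, b⟩ | ⟨a, b⟩ | ⟨a, b⟩ <;>
    rcases orbd_cases k' with ⟨a', b'⟩ | ⟨a', b'⟩ | ⟨a', b'⟩ | ⟨a', b'⟩ <;>
    (try (exfalso; omega)) <;>
    rcases orbd_cases (min k k') with ⟨c, d⟩ | ⟨c, d⟩ | ⟨c, d⟩ | ⟨c, d⟩ <;>
    (try (exfalso; omega)) <;>
    simp only [orbdG, b, b', d, Prod.fst_add, Prod.snd_add, Prod.mk_add_mk, Prod.mk.injEq] <;>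
    constructor <;> omega

omit [NeZero M] [NeZero L] in
theorem orbd_cases' (q : ℤ × ℤ) (k : ℤ) :
    (d4 k = (1, 0) ∧ edg M L q k = (((q.1 : ℤ) : ZMod M), ((q.2 : ℤ) : ZMod L), true)) ∨
    (d4 k = (0, 1) ∧ edg M L q k = (((q.1 : ℤ) : ZMod M), ((q.2 : ℤ) : ZMod L), false)) ∨
    (d4 k = (-1, 0) ∧ edg M L q k = (((q.1 - 1 : ℤ) : ZMod M), ((q.2 : ℤ) : ZMod L), true)) ∨
    (d4 k = (0, -1) ∧ edg M L q k = (((q.1 : ℤ) : ZMod M), ((q.2 - 1 : ℤ) : ZMod L), false)) := by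
  have h : k % 4 = 0 ∨ k % 4 = 1 ∨ k % 4 = 2 ∨ k % 4 = 3 := by omega
  rcases h with h | h | h | h <;> simp [d4, edg, h]

omit [NeZero M] [NeZero L] in
theorem orbd_edg {q q' : ℤ × ℤ} {k k' : ℤ} (h : orbdG q k = orbdG q' k') :
    edg M L q k = edg M L q' k' := by
  have key : ∀ (a b a' b' : ℤ) (c : Bool), a = a' → b = b' →
      (((a : ZMod M), (b : ZMod L), c) : Edge M L) = ((a' : ZMod M), (b' : ZMod L), c) :=
    fun a b a' b' c h1 h2 => by rw [h1, h2]
  rcases orbd_cases' (M := M) (L := L) q k with ⟨b, c⟩ | ⟨b, c⟩ | ⟨b, c⟩ | ⟨b, c⟩ <;>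
    rcases orbd_cases' (M := M) (L := L) q' k' with ⟨b', c'⟩ | ⟨b', c'⟩ | ⟨b', c'⟩ | ⟨b', c'⟩ <;>
    simp only [orbdG, b, b', Prod.mk.injEq] at h <;> rw [c, c'] <;>
    first
    | (refine key _ _ _ _ _ ?_ ?_ <;> omega)
    | (exfalso; omega)

theorem orb_hopf (h : Orb s l n p K D t) : (D = 0 → t = 4 ∨ t = -4) ∧ (D ≠ 0 → t = 0) := by
  have hr : ∀ k, K (k + 1) = K k + 1 ∨ K (k + 1) = K k - 1 := fun k => by
    rw [h.rot k]
    unfold sg
    split_ifs <;> omega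
  have hg : ∀ k, orbdG (p (k + 1)) (K (k + 1)) = orbdG (p k) (K k) + d4 (min (K k) (K (k + 1))) :=
    fun k => by rw [h.step k, orbd_step _ (hr k)]
  have hJ : ∀ k, |min (K (k + 1)) (K (k + 1 + 1)) - min (K k) (K (k + 1))| ≤ 1 := fun k => by
    have h1 := hr k
    have h2 := hr (k + 1)
    rw [abs_le]
    omega
  have hper : ∀ k, min (K (k + n)) (K (k + n + 1)) = min (K k) (K (k + 1)) + t := fun k => by
    rw [Nat.add_right_comm, h.perK, h.perK, min_add_add_right]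
  have hd : ∀ k, d4 (K (k + n)) = d4 (K k) := fun k => by
    have h1 := h.step (k + n)
    rw [Nat.add_right_comm, h.perp, h.perp, h.step, add_right_comm] at h1
    exact (add_left_cancel h1).symm
  have hgp : ∀ k, orbdG (p (k + n)) (K (k + n)) = orbdG (p k) (K k) + (D.1 + D.2, D.2 - D.1) :=
    fun k => by
      simp only [orbdG, hd, h.perp, Prod.fst_add, Prod.snd_add, Prod.mk_add_mk, Prod.mk.injEq]
      constructor <;> ring
  refine ⟨fun h0 => hopf_closed (g := fun k => orbdG (p k) (K k))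
    (J := fun k => min (K k) (K (k + 1))) h.pos hg hJ (fun k => ?_) hper
    fun k k' h1 h2 e => h.inj k k' h1 h2 (orbd_edg e), fun h0 => ?_⟩
  · rw [hgp, h0]
    exact add_zero _
  have hD : (D.1 + D.2, D.2 - D.1) ≠ 0 := fun e => by
    have e1 := congrArg Prod.fst e
    have e2 := congrArg Prod.snd e
    simp only [Prod.fst_zero, Prod.snd_zero] at e1 e2
    exact h0 (Prod.ext (show D.1 = 0 by omega) (show D.2 = 0 by omega))
  have hE : ∀ j k : ℕ, edg M L (p (k + j * n)) (K (k + j * n)) = edg M L (p k) (K k) := fun j k => by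
    induction j with
    | zero => rw [Nat.zero_mul, Nat.add_zero]
    | succ j ih => rw [Nat.succ_mul, ← Nat.add_assoc, h.perE, ih]
  have hG : ∀ j k : ℕ, orbdG (p (k + j * n)) (K (k + j * n)) =
      orbdG (p k) (K k) + j • (D.1 + D.2, D.2 - D.1) := fun j k => by
    induction j with
    | zero => rw [Nat.zero_mul, Nat.add_zero, zero_smul, add_zero]
    | succ j ih => rw [Nat.succ_mul, ← Nat.add_assoc, hgp, ih, succ_nsmul, add_assoc]
  refine hopf_open (g := fun k => orbdG (p k) (K k)) (J := fun k => min (K k) (K (k + 1)))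
    h.pos hD hg hJ hgp hper fun k k' h1 e => ?_
  obtain ⟨j, r, hr', rfl⟩ : ∃ j r, r < n ∧ k' = k + r + j * n :=
    ⟨(k' - k) / n, (k' - k) % n, Nat.mod_lt _ h.pos, by
      have h2 := Nat.mod_add_div' (k' - k) n
      omega⟩
  rcases Nat.eq_zero_or_pos r with rfl | hr0
  · have e' : orbdG (p k) (K k) = orbdG (p (k + j * n)) (K (k + j * n)) := e
    rw [hG, left_eq_add, smul_eq_zero] at e'
    rcases e' with rfl | e'
    · omega
    · exact hD e'
  · exact h.inj k (k + r) (by omega) (by omega) ((orbd_edg e).trans (hE j (k + r)))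

end Vale.Agent.P167
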