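import Vale.Agent.P167.OrbB
import Vale.Agent.P167.OrbC
import Vale.Agent.P167.OrbD

/-! The Umlaufsatz on the torus. -/

namespace Vale.Agent.P167

variable {M L : ℕ} [NeZero M] [NeZero L]

theorem umlauf (hM : Even M) (hL : Even L) (s : Conf M L) (l : Loop s) :
    (Contr s l → turn s l = 4 ∨ turn s l = -4) ∧ (¬Contr s l → turn s l = 0) := by
  obtain ⟨n, p, K, D, t, h⟩ := exists_orb hM hL s l
  have h1 := orb_disp hM hL h
  have h2 : Contr s l ↔ D = 0 := by
    rw [contr_iff hM hL, h1.1, h1.2, Prod.ext_iff]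
    rfl
  rw [orb_turn hM hL h, h2]
  exact orb_hopf h

end Vale.Agent.P167
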