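import Vale.Agent.P167.BkB
import Vale.Agent.P167.Uml

/-! The identity between the six-vertex torus and the loop model. -/

open MeasureTheory Vale.Agent.P152

noncomputable section

namespace Vale.Agent.P167

variable {M L : ℕ} [NeZero M] [NeZero L]

open Classical in
theorem bkw (hM : Even M) (hL : Even L) (a : ℝ) (G : Cfg (ZMod M) (ZMod L) → ℝ)
    (A : ∀ s : Conf M L, Loop s → ℝ) (hG : ∀ s ε, G (ori s ε) = ∑ l, (sg (ε l) : ℝ) * A s l) :
    ∑ ω, torW (2 * Real.cos (a / 2)) M L ω * Real.cos (G ω) =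
      ∑ s : Conf M L, (∏ l ∈ Finset.univ.filter (Contr s), 2 * Real.cos (a + turn s l / 4 * A s l)) *
        ∑ ε ∈ Bal s, Real.cos (∑ l, (sg (ε l) : ℝ) * A s l.1) := by
  have E := expand (M := M) (L := L) hM hL (c := 2 * Real.cos (a / 2))
    (w := fun k => Complex.exp ((a / 4 * k : ℝ) * Complex.I)) (by simp)
    (by
      rw [Complex.ofReal_mul 2, Complex.ofReal_cos, Complex.ofReal_ofNat, Complex.two_cos]
      congr 2 <;> push_cast <;> ring)
    (fun x y => by rw [← Complex.exp_add]; congr 1; push_cast; ring)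
    (fun ω => if ∀ x, ∑ y, sg (ω (x, y, true)) = 0 then Complex.exp (G ω * Complex.I) else 0)
  have E2 := congrArg Complex.re E
  rw [Complex.re_sum, Complex.re_sum] at E2
  refine (Finset.sum_congr rfl fun ω _ => ?_).trans (E2.trans (Finset.sum_congr rfl fun s _ => Eq.symm ?_))
  · simp only [torW, bal_iff, Complex.re_ofReal_mul]
    split_ifs
    · rw [Complex.exp_ofReal_mul_I_re]
    · simp
  · have h1 : ∀ ε : Loop s → Bool, Complex.exp ((a / 4 * (∑ l, sg (ε l) * turn s l : ℤ) : ℝ) * Complex.I) *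
        (if ∀ x, ∑ y, sg (ori s ε (x, y, true)) = 0 then Complex.exp (G (ori s ε) * Complex.I) else 0) =
        if ∀ x, ∑ l, sg (ε l) * col s l x = 0 then
          Complex.exp ((∑ l, (sg (ε l) : ℝ) * (a / 4 * turn s l + A s l) : ℝ) * Complex.I) else 0 := fun ε => by
      simp only [col_ori, hG]
      split_ifs
      · rw [← Complex.exp_add, ← add_mul, ← Complex.ofReal_add]
        congr 3
        simp only [Int.cast_sum, Int.cast_mul, Finset.mul_sum, ← Finset.sum_add_distrib]
        exact Finset.sum_congr rfl fun l _ => by ring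
      · simp
    simp only [h1]
    rw [factor, Complex.re_ofReal_mul, Complex.re_sum]
    congr 1
    · refine Finset.prod_congr rfl fun l hl => ?_
      rcases (umlauf hM hL s l).1 (Finset.mem_filter.1 hl).2 with h | h <;> rw [h]
      · congr 2; push_cast; ring
      · rw [← Real.cos_neg]; congr 2; push_cast; ring
    · refine Finset.sum_congr rfl fun ε _ => ?_
      rw [Complex.exp_ofReal_mul_I_re]
      congr 1
      refine Finset.sum_congr rfl fun l _ => ?_
      rw [(umlauf hM hL s l.1).2 l.2]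
      simp

theorem avg_eq (hM : Even M) (hL : Even L) {q : ℝ} (h0 : 0 < q) (h4 : q ≤ 4) {δ : ℝ} (hδ : 0 < δ)
    {f : ℂ → ℝ} (hf : Test f) :
    avg q M L δ f = tE (2 * Real.cos (Real.arccos (√q / 2) / 2)) M L fun ω => Real.cos (fld δ f ω) := by
  classical
  have hq : 0 < √q := Real.sqrt_pos.2 h0
  have hq2 : √q ≤ 2 := Real.sqrt_le_iff.2 ⟨by norm_num, by linarith⟩
  have hc : 2 * Real.cos (Real.arccos (√q / 2)) = √q := by
    rw [Real.cos_arccos (by linarith) (by linarith)]; ring
  have h1 := bkw hM hL (Real.arccos (√q / 2)) (fun ω => fld δ f (lft ω)) (mass δ f) (fld_ori hδ hf)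
  have h2 := bkw hM hL (Real.arccos (√q / 2)) (fun _ => 0) (fun _ _ => 0) (by simp)
  simp only [Real.cos_zero, mul_one, mul_zero, add_zero, hc, Finset.prod_const, Finset.sum_const_zero,
    Finset.sum_const, nsmul_eq_mul] at h2
  unfold avg tE
  rw [h1, h2]
  congr 1
  refine Finset.sum_congr rfl fun s _ => ?_
  unfold lw obs
  rw [mul_mul_mul_comm, ← Finset.prod_const, ← Finset.prod_mul_distrib]
  congr 1
  · refine Finset.prod_congr rfl fun l _ => ?_
    field_simp
  · rcases (Bal s).eq_empty_or_nonempty with h | h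
    · simp [h]
    · have : ((Bal s).card : ℝ) ≠ 0 := by exact_mod_cast h.card_pos.ne'
      field_simp

end Vale.Agent.P167
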