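import Vale.Agent.P167.Def2

/-! Lifting. `exists_orb_at`: copy the proof of `exists_orb` (file OrbB, do not edit it) with `e0 = edg M L a.1 a.2`. `cl_shift`: `v.1`, `v.2` are even (`ZMod.intCast_zmod_eq_zero_iff_dvd`), induction on `EqvGen`.
`cl_proj`: `Quot.sound`, `ev_cast`. `cl_lift`: `Quot.eq` / `Quot.eqvGen_exact`; prove by induction on `EqvGen (Adj s) u w` that for all `a b : ℤ × ℤ` projecting to `u` and `w` the conclusion holds
(use `cl_shift`, `ZMod.intCast_surjective`; two lifts of the same point differ by a lattice vector). -/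

open Vale.Agent.P152

noncomputable section

namespace Vale.Agent.P167

variable {M L : ℕ} [NeZero M] [NeZero L] {s : Conf M L} {l : Loop s} {n : ℕ} {p : ℕ → ℤ × ℤ} {K : ℕ → ℤ}
  {D : ℤ × ℤ} {t : ℤ}

theorem exists_orb_at (hM : Even M) (hL : Even L) (s : Conf M L) (a : (ℤ × ℤ) × ℤ)
    (ha : (a.1.1 + a.1.2 + a.2) % 2 = 0) :
    ∃ n p K D t, Orb s (Quot.mk _ (edg M L a.1 a.2)) n p K D t ∧ p 0 = a.1 ∧ K 0 = a.2 := by
  generalize hae : edg M L a.1 a.2 = e0
  have hinj := ob_nx_inj hM hL s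
  have hper : e0 ∈ Function.periodicPts (obNx s) := hinj.mem_periodicPts e0
  have hn : 0 < Function.minimalPeriod (obNx s) e0 := Function.minimalPeriod_pos_of_mem_periodicPts hper
  have hN : (obNx s)^[Function.minimalPeriod (obNx s) e0] e0 = e0 := Function.iterate_minimalPeriod
  generalize hn' : Function.minimalPeriod (obNx s) e0 = n at hn hN
  have hpar : ∀ k, (((obSt s)^[k] a).1.1 + ((obSt s)^[k] a).1.2 + ((obSt s)^[k] a).2) % 2 = 0 := by
    intro k
    induction k with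
    | zero => exact ha
    | succ k ih => rw [Function.iterate_succ_apply']; exact ob_par s _ ih
  have hE : ∀ k, edg M L ((obSt s)^[k] a).1 ((obSt s)^[k] a).2 = (obNx s)^[k] e0 := by
    intro k
    induction k with
    | zero => exact hae
    | succ k ih => rw [Function.iterate_succ_apply', Function.iterate_succ_apply', ob_edg_st hM hL s _ (hpar k), ih]
  have hR := ob_edg_eq hM hL ((obSt s)^[n] a) a (hpar n) ha (by rw [hE n, hN, hae])
  have hS : ∀ k, (obSt s)^[k + n] a =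
      (((obSt s)^[k] a).1 + (((obSt s)^[n] a).1 - a.1), ((obSt s)^[k] a).2 + (((obSt s)^[n] a).2 - a.2)) := by
    intro k
    induction k with
    | zero => simp
    | succ k ih =>
      rw [Nat.succ_add, Function.iterate_succ_apply', ih, Function.iterate_succ_apply']
      refine ob_shift s _ _ ?_ ?_ ?_ _
      · simp only [Prod.fst_sub]; push_cast; rw [hR.1, sub_self]
      · simp only [Prod.snd_sub]; push_cast; rw [hR.2.1, sub_self]
      · have := hR.2.2; omega
  have hP : ∀ k, (obNx s)^[k + n] e0 = (obNx s)^[k] e0 := fun k => by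
    rw [Function.iterate_add_apply, hN]
  refine ⟨n, fun k => ((obSt s)^[k] a).1, fun k => ((obSt s)^[k] a).2, ((obSt s)^[n] a).1 - a.1,
    ((obSt s)^[n] a).2 - a.2, ⟨hn, ?_, ?_, hpar, ?_, ?_, ?_, ?_, ?_⟩, rfl, rfl⟩
  · intro k
    simp only [Function.iterate_succ_apply']
    rfl
  · intro k
    simp only [Function.iterate_succ_apply']
    rfl
  · intro k
    simp only [hS k]
  · intro k
    simp only [hS k]
  · intro k k' h1 h2 h
    simp only [hE] at h
    obtain ⟨j, rfl⟩ := Nat.exists_eq_add_of_lt h1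
    rw [add_assoc, Function.iterate_add_apply] at h
    have h3 : Function.IsPeriodicPt (obNx s) (j + 1) e0 := ((hinj.iterate k) h).symm
    have h4 := h3.minimalPeriod_le (Nat.succ_pos j)
    omega
  · intro k
    simp only [hE, hP]
  · intro e
    simp only [hE]
    constructor
    · intro h
      have hI : ∀ u, (∃ k, u = (obNx s)^[k] e0) ↔ (∃ k, obNx s u = (obNx s)^[k] e0) := by
        intro u
        constructor
        · rintro ⟨k, rfl⟩
          exact ⟨k + 1, (Function.iterate_succ_apply' _ _ _).symm⟩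
        · rintro ⟨k, hk⟩
          refine ⟨k + n - 1, hinj ?_⟩
          rw [hk, ← Function.iterate_succ_apply' (obNx s), ← hP k]
          exact congrArg (fun m => (obNx s)^[m] e0) (by omega)
      have hJ : ∀ u v, Join s u v → (∃ k, u = (obNx s)^[k] e0) = (∃ k, v = (obNx s)^[k] e0) := by
        intro u v huv
        rcases ob_join hM hL s u v huv with rfl | rfl
        · exact propext (hI u)
        · exact propext (hI v).symm
      have h5 : (∃ k, e = (obNx s)^[k] e0) = (∃ k, e0 = (obNx s)^[k] e0) :=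
        congrArg (Quot.lift (fun u => ∃ k, u = (obNx s)^[k] e0) hJ) h
      obtain ⟨k, hk⟩ : ∃ k, e = (obNx s)^[k] e0 := by rw [h5]; exact ⟨0, rfl⟩
      refine ⟨k % n, Nat.mod_lt _ hn, ?_⟩
      rw [hk, ← hn', Function.iterate_mod_minimalPeriod_eq]
    · rintro ⟨k, -, rfl⟩
      induction k with
      | zero => rfl
      | succ k ih => rw [Function.iterate_succ_apply', ob_mk_nx hM hL, ih]

omit [NeZero M] [NeZero L] in
theorem lft_par {a b : ℤ × ℤ} (hab : Relation.EqvGen (AdjZ s) a b) :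
    (a.1 + a.2) % 2 = (b.1 + b.2) % 2 := by
  induction hab with
  | rel a b h =>
    obtain ⟨x, y, -, h⟩ := h
    split_ifs at h <;> obtain ⟨rfl, rfl⟩ := h <;> simp only <;> omega
  | refl a => rfl
  | symm a b _ ih => exact ih.symm
  | trans a b c _ _ ih ih' => exact ih.trans ih'

theorem cl_par {a b : ℤ × ℤ} (hab : b ∈ Cl s a) (ha : (a.1 + a.2) % 2 = 0) : (b.1 + b.2) % 2 = 0 :=
  (lft_par hab).symm.trans ha

theorem lft_even {M : ℕ} (hM : Even M) {x : ℤ} (h : (x : ZMod M) = 0) : x % 2 = 0 := by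
  obtain ⟨c, rfl⟩ := (ZMod.intCast_zmod_eq_zero_iff_dvd x M).1 h
  obtain ⟨r, rfl⟩ := hM
  push_cast
  rw [← two_mul, mul_assoc, Int.mul_emod_right]

theorem cl_shift (hM : Even M) (hL : Even L) {v : ℤ × ℤ} (h1 : (v.1 : ZMod M) = 0) (h2 : (v.2 : ZMod L) = 0)
    {a b : ℤ × ℤ} (hab : b ∈ Cl s a) : b + v ∈ Cl s (a + v) := by
  have e1 := lft_even hM h1
  have e2 := lft_even hL h2
  have hab' : Relation.EqvGen (AdjZ s) a b := hab
  change Relation.EqvGen (AdjZ s) (a + v) (b + v)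
  clear hab
  induction hab' with
  | rel a b h =>
    obtain ⟨x, y, hs, h⟩ := h
    refine .rel _ _ ⟨x + v.1, y + v.2, ?_, ?_⟩
    · push_cast
      rw [h1, h2, add_zero, add_zero, hs]
    · by_cases hp : (x + y) % 2 = 0
      · rw [if_pos hp] at h
        obtain ⟨rfl, rfl⟩ := h
        rw [if_pos (by omega)]
        exact ⟨rfl, Prod.ext (by simp only [Prod.fst_add]; ring) (by simp only [Prod.snd_add]; ring)⟩
      · rw [if_neg hp] at h
        obtain ⟨rfl, rfl⟩ := h
        rw [if_neg (by omega)]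
        exact ⟨Prod.ext (by simp only [Prod.fst_add]; ring) rfl,
          Prod.ext rfl (by simp only [Prod.snd_add]; ring)⟩
  | refl a => exact .refl _
  | symm a b _ ih => exact .symm _ _ ih
  | trans a b c _ _ ih ih' => exact .trans _ _ _ ih ih'

theorem cl_proj (hM : Even M) (hL : Even L) {a b : ℤ × ℤ} (hab : b ∈ Cl s a) :
    Quot.mk (Adj s) ((a.1 : ZMod M), (a.2 : ZMod L)) = Quot.mk _ ((b.1 : ZMod M), (b.2 : ZMod L)) := by
  have hab' : Relation.EqvGen (AdjZ s) a b := hab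
  clear hab
  induction hab' with
  | rel a b h =>
    obtain ⟨x, y, hs, h⟩ := h
    refine Quot.sound ⟨x, y, hs, ?_⟩
    rw [ev_cast hM hL]
    by_cases hp : (x + y) % 2 = 0
    · rw [if_pos hp] at h
      obtain ⟨rfl, rfl⟩ := h
      rw [if_pos (decide_eq_true hp)]
      simp
    · rw [if_neg hp] at h
      obtain ⟨rfl, rfl⟩ := h
      rw [if_neg fun e => hp (of_decide_eq_true e)]
      simp
  | refl a => rfl
  | symm a b _ ih => exact ih.symm
  | trans a b c _ _ ih ih' => exact ih.trans ih'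

/-- Joined up to a lattice translation. -/
def lftR (s : Conf M L) (a b : ℤ × ℤ) : Prop :=
  ∃ v : ℤ × ℤ, (v.1 : ZMod M) = 0 ∧ (v.2 : ZMod L) = 0 ∧ b + v ∈ Cl s a

omit [NeZero M] [NeZero L] in
theorem lft_same {a b : ℤ × ℤ}
    (h : ((a.1 : ZMod M), (a.2 : ZMod L)) = ((b.1 : ZMod M), (b.2 : ZMod L))) : lftR s a b := by
  obtain ⟨h1, h2⟩ := Prod.mk.inj h
  refine ⟨a - b, ?_, ?_, ?_⟩
  · rw [Prod.fst_sub, Int.cast_sub, h1, sub_self]
  · rw [Prod.snd_sub, Int.cast_sub, h2, sub_self]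
  · rw [add_sub_cancel]
    exact .refl _

theorem lft_trans (hM : Even M) (hL : Even L) {a b c : ℤ × ℤ} (h : lftR s a b) (h' : lftR s b c) :
    lftR s a c := by
  obtain ⟨v, h1, h2, h3⟩ := h
  obtain ⟨w, g1, g2, g3⟩ := h'
  refine ⟨w + v, ?_, ?_, ?_⟩
  · rw [Prod.fst_add, Int.cast_add, h1, g1, add_zero]
  · rw [Prod.snd_add, Int.cast_add, h2, g2, add_zero]
  · rw [← add_assoc]
    exact .trans _ _ _ h3 (cl_shift hM hL h1 h2 g3)

theorem lft_symm (hM : Even M) (hL : Even L) {a b : ℤ × ℤ} (h : lftR s a b) : lftR s b a := by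
  obtain ⟨v, h1, h2, h3⟩ := h
  have g1 : (((-v).1 : ℤ) : ZMod M) = 0 := by rw [Prod.fst_neg, Int.cast_neg, h1, neg_zero]
  have g2 : (((-v).2 : ℤ) : ZMod L) = 0 := by rw [Prod.snd_neg, Int.cast_neg, h2, neg_zero]
  have h4 : a ∈ Cl s (b + v) := .symm _ _ h3
  have h5 := cl_shift hM hL g1 g2 h4
  rw [add_neg_cancel_right] at h5
  exact ⟨-v, g1, g2, h5⟩

theorem lft_key (hM : Even M) (hL : Even L) {u w : ZMod M × ZMod L} (h : Relation.EqvGen (Adj s) u w) :
    ∀ a b : ℤ × ℤ, ((a.1 : ZMod M), (a.2 : ZMod L)) = u → ((b.1 : ZMod M), (b.2 : ZMod L)) = w →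
      lftR s a b := by
  induction h with
  | rel u w h =>
    intro a b ha hb
    obtain ⟨x, y, hs, h⟩ := h
    obtain ⟨x, rfl⟩ := ZMod.intCast_surjective x
    obtain ⟨y, rfl⟩ := ZMod.intCast_surjective y
    rw [ev_cast hM hL] at h
    have key : ∀ a' b' : ℤ × ℤ, AdjZ s a' b' → ((a'.1 : ZMod M), (a'.2 : ZMod L)) = u →
        ((b'.1 : ZMod M), (b'.2 : ZMod L)) = w → lftR s a b := fun a' b' h1 h2 h3 =>
      lft_trans hM hL (lft_same (ha.trans h2.symm)) (lft_trans hM hL
        ⟨0, Int.cast_zero, Int.cast_zero, by rw [add_zero]; exact .rel _ _ h1⟩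
        (lft_same (h3.trans hb.symm)))
    by_cases hp : (x + y) % 2 = 0
    · rw [if_pos (decide_eq_true hp)] at h
      refine key (x, y) (x - 1, y - 1) ⟨x, y, hs, by rw [if_pos hp]; exact ⟨rfl, rfl⟩⟩ h.1.symm ?_
      rw [h.2]
      simp
    · rw [if_neg fun e => hp (of_decide_eq_true e)] at h
      refine key (x - 1, y) (x, y - 1) ⟨x, y, hs, by rw [if_neg hp]; exact ⟨rfl, rfl⟩⟩ ?_ ?_
      · rw [h.1]
        simp
      · rw [h.2]
        simp
  | refl u => exact fun a b ha hb => lft_same (ha.trans hb.symm)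
  | symm u w _ ih => exact fun a b ha hb => lft_symm hM hL (ih b a hb ha)
  | trans u z w _ _ ih ih' =>
    intro a b ha hb
    obtain ⟨x, hx⟩ := ZMod.intCast_surjective z.1
    obtain ⟨y, hy⟩ := ZMod.intCast_surjective z.2
    have hz : ((((x, y) : ℤ × ℤ).1 : ZMod M), (((x, y) : ℤ × ℤ).2 : ZMod L)) = z := Prod.ext hx hy
    exact lft_trans hM hL (ih a (x, y) ha hz) (ih' (x, y) b hz hb)

theorem cl_lift (hM : Even M) (hL : Even L) {a b : ℤ × ℤ}
    (h : Quot.mk (Adj s) ((a.1 : ZMod M), (a.2 : ZMod L)) = Quot.mk _ ((b.1 : ZMod M), (b.2 : ZMod L))) :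
    ∃ v : ℤ × ℤ, (v.1 : ZMod M) = 0 ∧ (v.2 : ZMod L) = 0 ∧ b + v ∈ Cl s a :=
  lft_key hM hL (Quot.eqvGen_exact h) a b rfl rfl

end Vale.Agent.P167
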