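import Vale.Agent.P167.Key
import Vale.Agent.P167.Lft

/-! Counterclockwise loops are in bijection with contractible clusters.
For `l` with `Contr s l ∧ turn s l = 4` choose a lift (`exists_orb`; `D = 0` by `contr_iff`, `orb_disp`; `t = 4` by `orb_turn`) and map `l` to the torus cluster of `lfZ (p 0) (K 0)` (even by `par 0`, finite by `key1`).
Injective: by `cl_lift` the two planar clusters are translates (`cl_shift` with `v` and `-v`; `Cl s a = Cl s b` if `b ∈ Cl s a`); take `a` with minimal first coordinate (`Set.Finite.exists_minimalFor` or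
`Set.exists_min_image`), apply `key1` to `a` and to its translate. Surjective: take `a` minimal in the finite cluster, `exists_orb_at` with `((a.1, a.2 + 1), 3)` (`cl_par`), `key2`; for the chosen lift of that loop
`cover` gives `k` with the same edge, `ob_edg_eq` (file OrbB) shows that `lfZ (p k) (K k)` and `a` have the same projection; `lf_mem`, `cl_proj`. Use `Nat.card_congr (Equiv.ofBijective ..)`. -/

open Vale.Agent.P152

noncomputable section

namespace Vale.Agent.P167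

variable {M L : ℕ} [NeZero M] [NeZero L] {s : Conf M L} {l : Loop s} {n : ℕ} {p : ℕ → ℤ × ℤ} {K : ℕ → ℤ}
  {D : ℤ × ℤ} {t : ℤ}

theorem cnt_min (hM : Even M) (hL : Even L) {a : ℤ × ℤ} (ha : (a.1 + a.2) % 2 = 0)
    (hf : (Cl s a).Finite) : ∃ b : ℤ × ℤ, (b.1 + b.2) % 2 = 0 ∧
      Quot.mk (Adj s) ((b.1 : ZMod M), (b.2 : ZMod L)) = Quot.mk _ ((a.1 : ZMod M), (a.2 : ZMod L)) ∧
      (Cl s b).Finite ∧ ∀ c ∈ Cl s b, b.1 ≤ c.1 := by
  obtain ⟨b, hb, hm⟩ := Set.exists_min_image (Cl s a) (fun c => c.1) hf ⟨a, Relation.EqvGen.refl a⟩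
  have h1 : Cl s b ⊆ Cl s a := fun c hc => Relation.EqvGen.trans _ _ _ hb hc
  exact ⟨b, cl_par hb ha, (cl_proj hM hL hb).symm, hf.subset h1, fun c hc => hm c (h1 hc)⟩

theorem cnt_contr (hM : Even M) (hL : Even L) (h : Orb s l n p K D t) : Contr s l ↔ D = 0 := by
  have h1 := orb_disp hM hL h
  rw [contr_iff hM hL, h1.1, h1.2, Prod.ext_iff]
  rfl

omit [NeZero M] [NeZero L] in
theorem cnt_edg (a : ℤ × ℤ) :
    edg M L (a.1, a.2 + 1) 3 = ((a.1 : ZMod M), (a.2 : ZMod L), false) := by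
  simp [edg]

theorem cnt_orb (hM : Even M) (hL : Even L) {a : ℤ × ℤ} (ha : (a.1 + a.2) % 2 = 0)
    (hf : (Cl s a).Finite) (hm : ∀ c ∈ Cl s a, a.1 ≤ c.1) : ∃ n p K,
      Orb s (Quot.mk _ (((a.1 : ZMod M), (a.2 : ZMod L), false) : Edge M L)) n p K 0 4 ∧
        lfZ (p 0) (K 0) = a := by
  obtain ⟨n, p, K, D, t, h, hp, hK⟩ := exists_orb_at hM hL s ((a.1, a.2 + 1), 3)
    (by simp only; omega)
  obtain ⟨rfl, rfl⟩ := key2 h hp hK hf hm
  simp only [cnt_edg] at h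
  refine ⟨n, p, K, h, ?_⟩
  rw [hp, hK]
  simp [lfZ]

theorem cnt_inj (hM : Even M) (hL : Even L) {a b : ℤ × ℤ} (hb : (b.1 + b.2) % 2 = 0)
    (h : Orb s l n p K D t) (ha : lfZ (p 0) (K 0) = a)
    (hl : Quot.mk _ (((b.1 : ZMod M), (b.2 : ZMod L), false) : Edge M L) = l) :
    Quot.mk (Adj s) ((a.1 : ZMod M), (a.2 : ZMod L)) = Quot.mk _ ((b.1 : ZMod M), (b.2 : ZMod L)) := by
  obtain ⟨k, -, hk⟩ := (h.cover _).1 hl
  rw [← cnt_edg] at hk
  obtain ⟨h1, h2, h3⟩ := ob_edg_eq hM hL ((b.1, b.2 + 1), 3) (p k, K k) (by simp only; omega)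
    (h.par k) hk
  have h4 := lf_mem h k
  rw [ha] at h4
  have h5 : lfZ (p k) (K k) = ((p k).1, (p k).2 - 1) := by
    simp only at h3
    rw [lfZ, if_neg (by omega), if_neg (by omega), if_neg (by omega)]
  rw [cl_proj hM hL h4, h5]
  simp only [Int.cast_add, Int.cast_one] at h1 h2
  simp only [Int.cast_sub, Int.cast_one, ← h1, ← h2, add_sub_cancel_right]

omit [NeZero M] [NeZero L] in
theorem cnt_par (h : Orb s l n p K D t) :
    ((lfZ (p 0) (K 0)).1 + (lfZ (p 0) (K 0)).2) % 2 = 0 := by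
  have := h.par 0
  unfold lfZ
  split_ifs <;> (try simp only) <;> omega

theorem cnt_surj (hM : Even M) (hL : Even L) (h : Orb s l n p K 0 4) {a : ℤ × ℤ}
    (hm : ∀ c ∈ Cl s a, a.1 ≤ c.1)
    (he : Quot.mk (Adj s) ((a.1 : ZMod M), (a.2 : ZMod L)) =
      Quot.mk _ (((lfZ (p 0) (K 0)).1 : ZMod M), ((lfZ (p 0) (K 0)).2 : ZMod L))) :
    Quot.mk _ (((a.1 : ZMod M), (a.2 : ZMod L), false) : Edge M L) = l := by
  obtain ⟨v, h1, h2, hv⟩ := cl_lift hM hL he.symm
  have h3 := (key1 h).2 (a + v) hv fun b hb => by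
    have h4 : b ∈ Cl s (a + v) := Relation.EqvGen.trans _ _ _ (Relation.EqvGen.symm _ _ hv) hb
    have h5 := cl_shift hM hL (v := -v) (by simp [h1]) (by simp [h2]) h4
    rw [add_neg_cancel_right] at h5
    have h6 := hm _ h5
    simp only [Prod.fst_add, Prod.fst_neg] at h6 ⊢
    omega
  simpa only [Prod.fst_add, Prod.snd_add, Int.cast_add, h1, h2, add_zero] using h3

open Classical in
theorem count_ccw (hM : Even M) (hL : Even L) (s : Conf M L) :
    (Finset.univ.filter fun l => Contr s l ∧ turn s l = 4).card = kc s := by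
  have hex : ∀ C : {C : Quot (Adj s) // ∃ a : ℤ × ℤ, (a.1 + a.2) % 2 = 0 ∧
      Quot.mk _ ((a.1 : ZMod M), (a.2 : ZMod L)) = C ∧ (Cl s a).Finite}, ∃ b : ℤ × ℤ,
      (b.1 + b.2) % 2 = 0 ∧ Quot.mk (Adj s) ((b.1 : ZMod M), (b.2 : ZMod L)) = C.1 ∧
      (Cl s b).Finite ∧ ∀ c ∈ Cl s b, b.1 ≤ c.1 := by
    rintro ⟨C, a, ha, rfl, hf⟩
    exact cnt_min hM hL ha hf
  choose g h1 h2 h3 h4 using hex
  choose n p K h5 h6 using fun C => cnt_orb hM hL (h1 C) (h3 C) (h4 C)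
  rw [← Nat.subtype_card (p := fun l => Contr s l ∧ turn s l = 4) _ (by simp), kc]
  refine (Nat.card_congr (Equiv.ofBijective (fun C => ⟨Quot.mk _ (((g C).1 : ZMod M),
    ((g C).2 : ZMod L), false), (cnt_contr hM hL (h5 C)).2 rfl, orb_turn hM hL (h5 C)⟩)
    ⟨fun C C' h => ?_, fun l => ?_⟩)).symm
  · have := cnt_inj hM hL (h1 C') (h5 C) (h6 C) (congrArg Subtype.val h).symm
    rw [h2, h2] at this
    exact Subtype.ext this
  · obtain ⟨l, hc, ht⟩ := l
    obtain ⟨n, p, K, D, t, h⟩ := exists_orb hM hL s l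
    obtain rfl := (cnt_contr hM hL h).1 hc
    obtain rfl : t = 4 := (orb_turn hM hL h).symm.trans ht
    exact ⟨⟨_, lfZ (p 0) (K 0), cnt_par h, rfl, (key1 h).1⟩,
      Subtype.ext (cnt_surj hM hL h (h4 _) (h2 _))⟩

end Vale.Agent.P167
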