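import Vale.Agent.P167.Stm2
import Vale.Agent.P167.Uml

/-! Auxiliary definitions for the cluster count. -/

namespace Vale.Agent.P167

/-- The face on the left of the edge leaving `q` in direction `k`. -/
def lfZ (q : ℤ × ℤ) (k : ℤ) : ℤ × ℤ :=
  if k % 4 = 0 then q else if k % 4 = 1 then (q.1 - 1, q.2) else if k % 4 = 2 then (q.1 - 1, q.2 - 1)
  else (q.1, q.2 - 1)

/-- The winding number of a closed path around the face `a`: signed crossings of the ray to the left. -/
def Wn (n : ℕ) (p : ℕ → ℤ × ℤ) (K : ℕ → ℤ) (a : ℤ × ℤ) : ℤ :=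
  ∑ k ∈ Finset.range n, if (p k).1 ≤ a.1 then
    (if K k % 4 = 3 ∧ (p k).2 = a.2 + 1 then 1 else if K k % 4 = 1 ∧ (p k).2 = a.2 then -1 else 0) else 0

end Vale.Agent.P167
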