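import Vale.Agent.P167.Stmt

/-! Auxiliary definitions. -/

open MeasureTheory Vale.Agent.P152

noncomputable section

namespace Vale.Agent.P167

/-- The unit step of `ℤ × ℤ` in direction `k` (quarter turns). -/
def d4 (k : ℤ) : ℤ × ℤ :=
  if k % 4 = 0 then (1, 0) else if k % 4 = 1 then (0, 1) else if k % 4 = 2 then (-1, 0) else (0, -1)

/-- The periodic extension of a torus configuration. -/
def lft {M L : ℕ} (ω : Cfg (ZMod M) (ZMod L)) : Cfg ℤ ℤ :=
  fun e => ω ((e.1 : ZMod M), (e.2.1 : ZMod L), e.2.2)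

/-- Expectation on the six-vertex torus. -/
def tE (c : ℝ) (M L : ℕ) [NeZero M] [NeZero L] (F : Cfg ℤ ℤ → ℝ) : ℝ :=
  (∑ ω : Cfg (ZMod M) (ZMod L), torW c M L ω * F (lft ω)) / ∑ ω : Cfg (ZMod M) (ZMod L), torW c M L ω

variable {M L : ℕ} [NeZero M] [NeZero L]

/-- The medial edge leaving the point `p` in direction `k`. -/
def edg (M L : ℕ) (p : ℤ × ℤ) (k : ℤ) : Edge M L :=
  if k % 4 = 0 then ((p.1 : ZMod M), (p.2 : ZMod L), true)
  else if k % 4 = 1 then ((p.1 : ZMod M), (p.2 : ZMod L), false)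
  else if k % 4 = 2 then ((p.1 : ZMod M) - 1, (p.2 : ZMod L), true)
  else ((p.1 : ZMod M), (p.2 : ZMod L) - 1, false)

/-- A lift of the loop `l` to the plane: positions `p`, directions `K`, length `n`, period `D`, total turning `t`. -/
structure Orb (s : Conf M L) (l : Loop s) (n : ℕ) (p : ℕ → ℤ × ℤ) (K : ℕ → ℤ) (D : ℤ × ℤ) (t : ℤ) : Prop where
  pos : 0 < n
  step : ∀ k, p (k + 1) = p k + d4 (K k)
  rot : ∀ k, K (k + 1) = K k - sg (s (((p (k + 1)).1 : ZMod M), ((p (k + 1)).2 : ZMod L)))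
  par : ∀ k, ((p k).1 + (p k).2 + K k) % 2 = 0
  perp : ∀ k, p (k + n) = p k + D
  perK : ∀ k, K (k + n) = K k + t
  inj : ∀ k k', k < k' → k' < k + n → edg M L (p k) (K k) ≠ edg M L (p k') (K k')
  perE : ∀ k, edg M L (p (k + n)) (K (k + n)) = edg M L (p k) (K k)
  cover : ∀ e, Quot.mk _ e = l ↔ ∃ k < n, e = edg M L (p k) (K k)

end Vale.Agent.P167
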