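import Vale.Agent.P167.Cnt

/-! Euler relation and the weights.
`euler`: `∑ l, mem s l e = 1`, so `∑ l, turn s l = ∑ v, -2 * sg (s v) = 2 * (M * L) - 4 * open`; by `umlauf` the left side is `4 * n₊ - 4 * n₋` with `n₊ + n₋ = card Contr`, `n₊ = kc s` (`count_ccw`).
`avgF_eq`: with `r = √q`, `q = r ^ 2`, `1 - r / (1 + r) = 1 / (1 + r)`, `open + closed = M * L`, `M * L = 2 * N`: `fw q s = r ^ N / (1 + r) ^ (M * L) * lw q s`; the constant cancels (`mul_div_mul_left`). -/

open Vale.Agent.P152

noncomputable section

namespace Vale.Agent.P167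

variable {M L : ℕ} [NeZero M] [NeZero L] {s : Conf M L} {l : Loop s} {n : ℕ} {p : ℕ → ℤ × ℤ} {K : ℕ → ℤ}
  {D : ℤ × ℤ} {t : ℤ}

theorem eul_mem (s : Conf M L) (e : Edge M L) : ∑ l, mem s l e = 1 := by
  classical
  unfold mem
  simp

theorem eul_card (s : Conf M L) : (Finset.univ.filter fun v => s v = true).card +
    (Finset.univ.filter fun v => s v = false).card = M * L := by
  have h := Finset.card_filter_add_card_filter_not (s := (Finset.univ : Finset (ZMod M × ZMod L)))
    (fun v => s v = true)
  simp only [Bool.not_eq_true] at h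
  rw [h, Finset.card_univ, Fintype.card_prod, ZMod.card, ZMod.card]

theorem eul_turn (s : Conf M L) : ∑ l, turn s l =
    2 * ((Finset.univ.filter fun v => s v = false).card : ℤ) -
      2 * ((Finset.univ.filter fun v => s v = true).card : ℤ) := by
  unfold turn
  rw [Finset.sum_comm, Finset.card_filter, Finset.card_filter]
  push_cast
  rw [Finset.mul_sum, Finset.mul_sum, ← Finset.sum_sub_distrib]
  refine Finset.sum_congr rfl fun v _ => ?_
  rw [← Finset.mul_sum, Finset.sum_add_distrib, eul_mem, eul_mem]
  cases s v <;> simp [sg]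

open Classical in
theorem euler (hM : Even M) (hL : Even L) (s : Conf M L) :
    2 * (Finset.univ.filter (Contr s)).card + M * L =
      4 * kc s + 2 * (Finset.univ.filter fun v => s v = true).card := by
  have h1 : ∑ l, turn s l = 8 * ((Finset.univ.filter fun l => Contr s l ∧ turn s l = 4).card : ℤ) -
      4 * ((Finset.univ.filter (Contr s)).card : ℤ) := by
    rw [Finset.card_filter, Finset.card_filter]
    push_cast
    rw [Finset.mul_sum, Finset.mul_sum, ← Finset.sum_sub_distrib]
    refine Finset.sum_congr rfl fun l _ => ?_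
    have h := umlauf hM hL s l
    by_cases hc : Contr s l
    · rcases h.1 hc with h4 | h4 <;> simp [hc, h4]
    · simp [hc, h.2 hc]
  rw [eul_turn, count_ccw hM hL] at h1
  have h2 := eul_card s
  omega

theorem avgF_eq (hM : Even M) (hL : Even L) {q : ℝ} (h0 : 0 < q) (δ : ℝ) (f : ℂ → ℝ) :
    avgF q M L δ f = avg q M L δ f := by
  obtain ⟨N, hN⟩ : Even (M * L) := hM.mul_right L
  have hr : 0 < √q := Real.sqrt_pos.2 h0
  have hq : q = √q ^ 2 := (Real.sq_sqrt h0.le).symm
  have key : ∀ s : Conf M L, fw q s = √q ^ N / (1 + √q) ^ (M * L) * lw q s := by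
    intro s
    have h1 := euler hM hL s
    have h2 := eul_card s
    unfold fw lw
    generalize √q = r at hr hq
    subst hq
    generalize (Finset.univ.filter fun v => s v = true).card = o at h1 h2
    generalize (Finset.univ.filter fun v => s v = false).card = c at h2
    generalize kc s = k at h1
    generalize @Finset.card (Loop s) _ = C at h1 ⊢
    have e1 : 1 - r / (1 + r) = 1 / (1 + r) := by field_simp; ring
    have e2 : r ^ o * (r ^ 2) ^ k = r ^ N * r ^ C := by
      rw [← pow_mul, ← pow_add, ← pow_add]
      exact congrArg (r ^ ·) (by omega)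
    rw [e1, ← h2, div_pow, div_pow, one_pow, pow_add]
    have p1 : (1 + r) ^ o ≠ 0 := by positivity
    have p2 : (1 + r) ^ c ≠ 0 := by positivity
    field_simp
    linear_combination ((Bal s).card : ℝ) * e2
  have hc : √q ^ N / (1 + √q) ^ (M * L) ≠ 0 := by positivity
  unfold avgF avg
  simp only [key, mul_assoc, ← Finset.mul_sum]
  exact mul_div_mul_left _ _ hc

end Vale.Agent.P167
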