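import Vale.Agent.P167.Defs
import Vale.Agent.P169.HopfA

/-! Discrete Umlaufsatz on the square lattice, part 1: the secant identity.
Hint: copy the proof of `Vale.P169.hopf` (file P169/HopfA). The steps `d4 k` are the steps `d2 κ` with
`κ = kap k = 3 * (k / 2) + k % 2` (check `d4 k = Vale.P169.d2 (kap k)` by cases on `k % 4`), `kap k / 3 = k / 2`, and
`kap (k + s) - kap k ∈ {0, ±1, ±2}` for `|s| ≤ 1`. Only `hh_turn` has to be reproved, for `d4 k`, `d4 (k + s)`, `s ∈ {-1, 0, 1}`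
(reduce `k` mod 4, `decide`). `VV_move`, `VV_split`, `VV_one`, `hh_neg` are used as they are, with `κ l = kap (J l)`.
`VV_half`: `VV_pot` with `m` of the same type gives a difference of two values of `pot` in `{0, 1}`; for general half planes
`0 ≤ a * x + b * y` reprove it from `ha_pot1` / `ha_pot2` (the half plane misses the negative or the positive real half axis when
`a ≠ 0`; for `a = 0` use `XX`-free case check: the path stays in `0 ≤ y` or `y ≤ 0`, potential = indicator as in `pot`). -/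

namespace Vale.Agent.P167

open Vale.P169

variable {g : ℕ → ℤ × ℤ} {J : ℕ → ℤ}

theorem hop_d4 (k : ℤ) : d4 k = d2 (3 * (k / 2) + k % 2) := by
  have : k % 4 = 0 ∨ k % 4 = 1 ∨ k % 4 = 2 ∨ k % 4 = 3 := by omega
  rcases this with e | e | e | e
  · have f : (3 * (k / 2) + k % 2) % 6 = 0 := by omega
    simp [d4, d2, proj, dv, e, f]
  · have f : (3 * (k / 2) + k % 2) % 6 = 1 := by omega
    simp [d4, d2, proj, dv, e, f]
  · have f : (3 * (k / 2) + k % 2) % 6 = 3 := by omega
    simp [d4, d2, proj, dv, e, f]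
  · have f : (3 * (k / 2) + k % 2) % 6 = 4 := by omega
    simp [d4, d2, proj, dv, e, f]

theorem hop_turn (k s : ℤ) (hs : s = 1 ∨ s = 0 ∨ s = -1) :
    hh (d4 k) (d4 k + d4 (k + s)) + hh (-(d4 k + d4 (k + s))) (-d4 (k + s)) =
      (k + s) / 2 - k / 2 := by
  have hd : ∀ {k l : ℤ}, k % 4 = l % 4 → d4 k = d4 l := fun h => by unfold d4; rw [h]
  rw [hd (show k % 4 = (k % 4) % 4 by omega), hd (show (k + s) % 4 = (k % 4 + s) % 4 by omega),
    show (k + s) / 2 - k / 2 = (k % 4 + s) / 2 - (k % 4) / 2 by omega]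
  have : k % 4 = 0 ∨ k % 4 = 1 ∨ k % 4 = 2 ∨ k % 4 = 3 := by omega
  rcases this with e | e | e | e <;> rw [e] <;> rcases hs with rfl | rfl | rfl <;> decide

theorem hop_abs (u v : ℤ × ℤ) : |hh u v| ≤ 1 := by
  rw [abs_le]
  unfold hh
  split_ifs <;> omega

theorem hop_tel (z : ℤ × ℤ) (φ : ℕ → ℤ) {i j : ℕ} (hij : i ≤ j)
    (h : ∀ l, i ≤ l → l < j → hh (g l - z) (g (l + 1) - z) = φ (l + 1) - φ l) :
    VV g z i j = φ j - φ i := by
  induction j, hij using Nat.le_induction with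
  | base => simp [VV]
  | succ j hij ih =>
    rw [VV_split g z hij (Nat.le_succ j), VV_one, ih fun l h1 h2 => h l h1 (by omega),
      h j hij (by omega)]
    ring

theorem hop_upp (u v : ℤ × ℤ) : |upp u - upp v| ≤ 1 := by
  rw [abs_le]
  unfold upp
  split_ifs <;> omega

/-- Half turns of the direction = half turns seen from the first point + half turns seen from the last point. -/
theorem hopf4 (hg : ∀ l, g (l + 1) = g l + d4 (J l)) {i j : ℕ} (hij : i ≤ j)
    (hJ : ∀ l, |J (l + 1) - J l| ≤ 1)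
    (hinj : ∀ l l', i ≤ l → l < l' → l' ≤ j + 1 → g l ≠ g l') :
    J j / 2 - J i / 2 = VV g (g i) (i + 1) (j + 1) + VV g (g (j + 1)) i j := by
  induction j, hij using Nat.le_induction with
  | base => simp [VV]
  | succ j hij ih =>
    have ih' := ih fun l l' h1 h2 h3 => hinj l l' h1 h2 (by omega)
    obtain ⟨s, hs, hκj⟩ : ∃ s : ℤ, (s = 1 ∨ s = 0 ∨ s = -1) ∧ J (j + 1) = J j + s :=
      ⟨J (j + 1) - J j, by have := abs_le.1 (hJ j); omega, by ring⟩
    have hm := VV_move (g := g) (z := g (j + 1)) (κ := fun l => 3 * (J l / 2) + J l % 2)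
      (fun l => by rw [hg, hop_d4]) (3 * (J (j + 1) / 2) + J (j + 1) % 2) hij fun l h1 h2 => by
      rw [← hop_d4, ← hg]
      exact ⟨hinj l _ h1 (by omega) (by omega), hinj l _ h1 (by omega) le_rfl⟩
    rw [← hop_d4, ← hg] at hm
    rw [VV_split g (g i) (show i + 1 ≤ j + 1 by omega) (Nat.le_succ (j + 1)),
      VV_split g (g (j + 1 + 1)) hij (Nat.le_succ j), VV_one, VV_one, hm]
    have ht := hop_turn (J j) s hs
    have e1 : g j - g (j + 1) = -d4 (J j) := by rw [hg]; abel
    have e2 : g j - g (j + 1) - d4 (J (j + 1)) = -(d4 (J j) + d4 (J j + s)) := by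
      rw [e1, hκj]; abel
    have e3 : g j - g (j + 1 + 1) = -(d4 (J j) + d4 (J j + s)) := by
      rw [hg (j + 1), ← e2]; abel
    have e4 : g (j + 1) - g (j + 1 + 1) = -d4 (J j + s) := by rw [hg (j + 1), hκj]; abel
    have e5 : g i - g (j + 1) = -(g (j + 1) - g i) := by abel
    have e6 : g i - g (j + 1) - d4 (J (j + 1)) = -(g (j + 1 + 1) - g i) := by
      rw [hg (j + 1)]; abel
    rw [e2, e3, e4, e6, e1, e5, hh_neg, hh_neg, hκj]
    omega

/-- Trivial bound. -/
theorem VV_abs (g : ℕ → ℤ × ℤ) (z : ℤ × ℤ) {i j : ℕ} (hij : i ≤ j) : |VV g z i j| ≤ (j : ℤ) - i := by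
  refine (Finset.abs_sum_le_sum_abs _ _).trans
    ((Finset.sum_le_sum fun l _ => hop_abs _ _).trans (le_of_eq ?_))
  simp [hij]

/-- A path which stays in an open half plane seen from `z` makes at most one half turn. -/
theorem VV_half (hg : ∀ l, g (l + 1) = g l + d4 (J l)) (z : ℤ × ℤ) (a b : ℤ) {i j : ℕ} (hij : i ≤ j)
    (h : ∀ l, i ≤ l → l ≤ j → 0 < a * (g l - z).1 + b * (g l - z).2) : |VV g z i j| ≤ 1 := by
  have e : ∀ l, g (l + 1) - z = g l - z + d2 (3 * (J l / 2) + J l % 2) := fun l => by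
    rw [hg, hop_d4]; abel
  have n : ∀ l, i ≤ l → l ≤ j → g l - z ≠ 0 := fun l h1 h2 h3 => by
    have := h l h1 h2
    rw [h3] at this
    simp at this
  rcases le_total 0 a with ha | ha
  · have m : ∀ l, i ≤ l → l ≤ j → ¬ ((g l - z).2 = 0 ∧ (g l - z).1 < 0) := fun l h1 h2 h3 => by
      have := h l h1 h2
      rw [h3.1] at this
      nlinarith [h3.2]
    rw [hop_tel z (fun l => upp (g l - z)) hij fun l h1 h2 => by
      rw [e]
      exact ha_pot1 (g l - z).1 (g l - z).2 _ (n l h1 h2.le) (e l ▸ n (l + 1) (by omega) h2)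
        (m l h1 h2.le) (e l ▸ m (l + 1) (by omega) h2)]
    exact hop_upp _ _
  · have m : ∀ l, i ≤ l → l ≤ j → ¬ ((g l - z).2 = 0 ∧ 0 < (g l - z).1) := fun l h1 h2 h3 => by
      have := h l h1 h2
      rw [h3.1] at this
      nlinarith [h3.2]
    rw [hop_tel z (fun l => -upp (g l - z)) hij fun l h1 h2 => by
      rw [e, neg_sub_neg]
      exact ha_pot2 (g l - z).1 (g l - z).2 _ (n l h1 h2.le) (e l ▸ n (l + 1) (by omega) h2)
        (m l h1 h2.le) (e l ▸ m (l + 1) (by omega) h2), neg_sub_neg]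
    exact hop_upp _ _

end Vale.Agent.P167
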