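import Vale.Agent.P167.HopC

/-! The sign in the Umlaufsatz. Hint: copy `hc_fin` and `hopf_closed` of HopC (do not edit that file) with the stronger conclusion:
`hc_fin` gives `(t = 4 ∧ A % 4 = 0 ∧ C % 4 = 3) ∨ (t = -4 ∧ A % 4 = 1 ∧ C % 4 = 2)`; there `A = J i`, `C = J (j + 1)`, `j + 2 = i + n`; the index of the statement is `j + 1`,
with `g (j + 2) = g i`, `J (j + 2) = J i + t`. -/

namespace Vale.Agent.P167

open Vale.P169

theorem hs_fin {A B C t : ℤ} (h1 : |C - B| ≤ 1) (h2 : |A + t - C| ≤ 1) (h3 : d4 (A + t) = d4 A)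
    (lA : 0 < (d4 A).1 ∨ (d4 A).1 = 0 ∧ 0 ≤ (d4 A).2)
    (lC : 0 < (-d4 C).1 ∨ (-d4 C).1 = 0 ∧ 0 ≤ (-d4 C).2)
    (lB : 0 ≤ (-d4 B - d4 C).1) (hne : d4 A ≠ -d4 C)
    (h : B / 2 - A / 2 = (upp (-d4 C) - upp (d4 A)) + (hh (d4 C) (d4 A + d4 C) +
      (upp (-d4 B - d4 C) - upp (d4 A) - hh (-d4 B) (-d4 B - d4 C) + hh (d4 A + d4 C) (d4 A)))) :
    (t = 4 ∧ A % 4 = 0 ∧ C % 4 = 3) ∨ (t = -4 ∧ A % 4 = 1 ∧ C % 4 = 2) := by
  rw [abs_le] at h1 h2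
  have ht : (A + t) % 4 = A % 4 := by
    rcases hc_d4 A with ⟨a, ea⟩ | ⟨a, ea⟩ | ⟨a, ea⟩ | ⟨a, ea⟩ <;>
      rcases hc_d4 (A + t) with ⟨b, eb⟩ | ⟨b, eb⟩ | ⟨b, eb⟩ | ⟨b, eb⟩ <;>
      rw [ea, eb] at h3 <;> first | omega | exact absurd h3 (by decide)
  rcases hc_d4 A with ⟨a, ea⟩ | ⟨a, ea⟩ | ⟨a, ea⟩ | ⟨a, ea⟩ <;> rw [ea] at lA hne h <;>
    first
    | exact absurd lA (by decide)
    | (rcases hc_d4 C with ⟨c, ec⟩ | ⟨c, ec⟩ | ⟨c, ec⟩ | ⟨c, ec⟩ <;> rw [ec] at lC hne h lB <;>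
      first
      | exact absurd lC (by decide)
      | exact absurd hne (by decide)
      | (rcases hc_d4 B with ⟨b, eb⟩ | ⟨b, eb⟩ | ⟨b, eb⟩ | ⟨b, eb⟩ <;> rw [eb] at h lB <;>
        first
        | exact absurd lB (by decide)
        | omega
        | (simp [hh, upp] at h; omega)))

theorem hopf_sign {g : ℕ → ℤ × ℤ} {J : ℕ → ℤ} {n : ℕ} {t : ℤ} (hn : 0 < n)
    (hg : ∀ l, g (l + 1) = g l + d4 (J l)) (hJ : ∀ l, |J (l + 1) - J l| ≤ 1)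
    (hgp : ∀ l, g (l + n) = g l) (hper : ∀ l, J (l + n) = J l + t)
    (hinj : ∀ l l', l < l' → l' < l + n → g l ≠ g l') :
    ∃ i, (∀ l, (g (i + 1)).1 ≤ (g l).1) ∧
      ((t = 4 ∧ J i % 4 = 3 ∧ J (i + 1) % 4 = 0) ∨ (t = -4 ∧ J i % 4 = 2 ∧ J (i + 1) % 4 = 1)) := by
  obtain ⟨i, -, hi⟩ := Finset.exists_min_image (Finset.range n) (fun l => toLex (g l))
    ⟨0, Finset.mem_range.2 hn⟩
  have hmin : ∀ l, 0 < (g l - g i).1 ∨ (g l - g i).1 = 0 ∧ 0 ≤ (g l - g i).2 := by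
    intro l
    have h1 := hi (l % n) (Finset.mem_range.2 (Nat.mod_lt _ hn))
    rw [Function.Periodic.map_mod_nat hgp, Prod.Lex.toLex_le_toLex] at h1
    simp only [Prod.fst_sub, Prod.snd_sub]
    omega
  have h3 : 3 ≤ n := by
    by_contra hc
    have h0 := hgp 0
    have h1 := hg 0
    have h2 := hg 1
    have h4 := abs_le.1 (hJ 0)
    obtain rfl | rfl : n = 1 ∨ n = 2 := by omega
    · rcases hc_d4 (J 0) with ⟨-, e⟩ | ⟨-, e⟩ | ⟨-, e⟩ | ⟨-, e⟩ <;> rw [e, h0] at h1 <;>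
        simp [Prod.ext_iff] at h1
    · rw [zero_add] at h0 h1 h4
      rw [h1, show 1 + 1 = 2 from rfl, h0] at h2
      rcases hc_d4 (J 0) with ⟨a, e⟩ | ⟨a, e⟩ | ⟨a, e⟩ | ⟨a, e⟩ <;>
        rcases hc_d4 (J 1) with ⟨b, e'⟩ | ⟨b, e'⟩ | ⟨b, e'⟩ | ⟨b, e'⟩ <;> rw [e, e'] at h2 <;>
        simp only [Prod.ext_iff, Prod.fst_add, Prod.snd_add] at h2 <;> omega
  obtain ⟨j, hj⟩ : ∃ j, j + 1 + 1 = i + n := ⟨i + n - 2, by omega⟩
  choose κ hκ using hc_d2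
  have hg' : ∀ l, g (l + 1) = g l + d2 (κ (J l)) := fun l => by rw [hg, hκ]
  have h0 : ∀ l, 0 ≤ (g l - g i).1 := fun l => by
    have := hmin l
    omega
  have ez : g i = g (j + 1) + d4 (J (j + 1)) := by rw [← hg, hj, hgp]
  have hH := hopf4 hg (i := i) (j := j) (by omega) hJ fun l l' h1 h2 h4 => hinj l l' h2 (by omega)
  have p1 := hc_pot (z := g i) hg' (show i + 1 ≤ j + 1 by omega) fun l h1 h2 =>
    ⟨(hinj i l (by omega) (by omega)).symm, h0 l⟩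
  have p2 := hc_pot (z := g i) hg' (show i + 1 ≤ j by omega) fun l h1 h2 =>
    ⟨(hinj i l (by omega) (by omega)).symm, h0 l⟩
  have p3 := VV_move (z := g (j + 1)) hg' (κ (J (j + 1))) (show i + 1 ≤ j by omega) fun l h1 h2 => by
    rw [← hκ, ← ez]
    exact ⟨hinj l _ (by omega) (by omega), (hinj i l (by omega) (by omega)).symm⟩
  rw [← hκ, ← ez] at p3
  rw [VV_split g (g (j + 1)) (show i ≤ i + 1 by omega) (show i + 1 ≤ j by omega), VV_one] at hH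
  have e1 : g (i + 1) - g i = d4 (J i) := by rw [hg]; abel
  have e2 : g (j + 1) - g i = -d4 (J (j + 1)) := by rw [ez]; abel
  have e3 : g j - g (j + 1) = -d4 (J j) := by rw [hg]; abel
  have e4 : g j - g i = -d4 (J j) - d4 (J (j + 1)) := by rw [ez, ← e3]; abel
  have e5 : g i - g (j + 1) = d4 (J (j + 1)) := by rw [ez]; abel
  have e6 : g (i + 1) - g (j + 1) = d4 (J i) + d4 (J (j + 1)) := by rw [← e1, ← e5]; abel
  rw [e1, e2] at p1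
  rw [e1, e4] at p2
  rw [e3, e6, add_sub_cancel_right] at p3
  rw [e5, e6] at hH
  have key : (t = 4 ∧ J i % 4 = 0 ∧ J (j + 1) % 4 = 3) ∨
      (t = -4 ∧ J i % 4 = 1 ∧ J (j + 1) % 4 = 2) := by
    refine hs_fin (A := J i) (B := J j) (C := J (j + 1)) (hJ j) ?_ ?_ (e1 ▸ hmin _) (e2 ▸ hmin _)
      (e4 ▸ h0 _) ?_ (by omega)
    · rw [← hper, ← hj]
      exact hJ _
    · have h1 := hg (i + n)
      rw [add_right_comm, hgp, hgp, hg, hper] at h1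
      exact (add_left_cancel h1).symm
    · rw [← e1, ← e2]
      exact fun h => hinj (i + 1) (j + 1) (by omega) (by omega) (sub_left_injective h)
  refine ⟨j + 1, fun l => ?_, ?_⟩
  · have h5 := h0 l
    rw [hj, hgp]
    rw [Prod.fst_sub] at h5
    omega
  · rw [hj, hper]
    omega

end Vale.Agent.P167
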