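import Vale.Agent.P167.WnC

/-! Counterclockwise loops and finite clusters.
`key1`: `Wn = 1` on the cluster (`wn_sign`, `wn_cl`), so it is finite (`wn_fin`). `Wn a ≠ 0` gives a step `k < n` with a nonzero term (`Finset.exists_ne_zero_of_sum_ne_zero`); a north step has left face
`((p k).1 - 1, a.2)` in the cluster (`lf_mem`), impossible; a south step has left face `((p k).1, a.2)`, so `(p k).1 = a.1`, and `cover`.
`key2`: `lfZ (p 0) (K 0) = a`; the left faces at times `j * n` are `a + j • D` (`perp`, `perK`, `orb_t4`), all in the finite cluster, so `D = 0`; `orb_hopf`; if `t = -4` then `Wn a = 0`, but all terms are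
nonnegative (north steps are excluded as above) and the term `k = 0` is `1`. -/

open Vale.Agent.P152

noncomputable section

namespace Vale.Agent.P167

variable {M L : ℕ} [NeZero M] [NeZero L] {s : Conf M L} {l : Loop s} {n : ℕ} {p : ℕ → ℤ × ℤ} {K : ℕ → ℤ}
  {D : ℤ × ℤ} {t : ℤ}

theorem key_north (h : Orb s l n p K D t) {a : ℤ × ℤ}
    (hm : ∀ b ∈ Cl s (lfZ (p 0) (K 0)), a.1 ≤ b.1) {k : ℕ} (hk : (p k).1 ≤ a.1) : K k % 4 ≠ 1 := by
  intro e
  have h1 := hm _ (lf_mem h k)
  rw [lfZ, if_neg (by omega), if_pos e] at h1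
  dsimp only at h1
  omega

theorem key1 (h : Orb s l n p K 0 4) : (Cl s (lfZ (p 0) (K 0))).Finite ∧
    ∀ a ∈ Cl s (lfZ (p 0) (K 0)), (∀ b ∈ Cl s (lfZ (p 0) (K 0)), a.1 ≤ b.1) →
      Quot.mk _ (((a.1 : ZMod M), (a.2 : ZMod L), false) : Edge M L) = l := by
  have hw : ∀ b ∈ Cl s (lfZ (p 0) (K 0)), Wn n p K b ≠ 0 := fun b hb => by
    rw [← wn_cl h hb, (wn_sign h).1 rfl]
    exact one_ne_zero
  refine ⟨(wn_fin h).subset hw, fun a ha hm => ?_⟩
  obtain ⟨k, hk, h1⟩ := Finset.exists_ne_zero_of_sum_ne_zero (hw a ha)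
  have h2 : (p k).1 ≤ a.1 := by
    by_contra e
    exact h1 (if_neg e)
  have h3 : K k % 4 = 3 ∧ (p k).2 = a.2 + 1 := by
    by_contra e
    exact h1 (by rw [if_pos h2, if_neg e, if_neg fun e' => key_north h hm h2 e'.1])
  have h4 := hm _ (lf_mem h k)
  rw [lfZ, if_neg (by omega), if_neg (by omega), if_neg (by omega)] at h4
  refine (h.cover _).2 ⟨k, Finset.mem_range.1 hk, ?_⟩
  rw [edg, if_neg (by omega), if_neg (by omega), if_neg (by omega), h3.2, le_antisymm h2 h4]
  simp

theorem key2 (h : Orb s l n p K D t) {a : ℤ × ℤ} (hp : p 0 = (a.1, a.2 + 1)) (hK : K 0 = 3)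
    (hf : (Cl s a).Finite) (hm : ∀ b ∈ Cl s a, a.1 ≤ b.1) : D = 0 ∧ t = 4 := by
  have h0 : lfZ (p 0) (K 0) = a := by
    rw [hK, hp]
    simp [lfZ]
  have h4 := orb_t4 h
  have hj : ∀ j : ℕ, p (j * n) = p 0 + j • D ∧ K (j * n) % 4 = 3 := fun j => by
    induction j with
    | zero => simp [hK]
    | succ j ih =>
      rw [Nat.succ_mul, h.perp, h.perK, ih.1, succ_nsmul, add_assoc]
      exact ⟨rfl, by omega⟩
  have hD : D = 0 := by
    by_contra hD
    refine Set.infinite_of_injective_forall_mem (f := fun j : ℕ => a + j • D)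
      (fun i j e => ?_) (fun j => ?_) hf
    · have e1 : (i : ℤ) • D = (j : ℤ) • D := by
        rw [natCast_zsmul, natCast_zsmul]
        exact add_left_cancel e
      exact_mod_cast smul_left_injective ℤ hD e1
    have h1 := lf_mem h (j * n)
    have h2 := (hj j).2
    rw [h0, lfZ, if_neg (by omega), if_neg (by omega), if_neg (by omega), (hj j).1, hp] at h1
    have e : a + j • D = (((a.1, a.2 + 1) + j • D).1, ((a.1, a.2 + 1) + j • D).2 - 1) := by
      refine Prod.ext rfl ?_
      simp only [Prod.snd_add]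
      ring
    exact e ▸ h1
  subst hD
  refine ⟨rfl, ((orb_hopf h).1 rfl).resolve_right fun e => ?_⟩
  have h1 := (wn_sign h).2 e
  rw [← h0] at hm
  rw [h0, Wn, Finset.sum_eq_zero_iff_of_nonneg fun k _ => ?_] at h1
  · have h2 := h1 0 (Finset.mem_range.2 h.pos)
    rw [hp, hK] at h2
    simp at h2
  · split_ifs with a1 a2 a3
    · exact zero_le_one
    · exact absurd a3.1 (key_north h hm (h0 ▸ a1))
    · exact le_rfl
    · exact le_rfl

end Vale.Agent.P167
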