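import Vale.Agent.P167.Defs
import Vale.Agent.P152.Ht
import Vale.Agent.P152.Basic

/-! From `IsLimit` and `ToGFF` to torus expectations of `cos (fld δ f ·)`.
`lim_loc`: write `F ω = ∑ η : S → Bool, F (ext η) * 1[ω = η on S]` (`ext η e = if h : e ∈ S then η ⟨e, h⟩ else false`), so `tE = ∑ η, F (ext η) * torP .. S (ext η)`
and `∫ F dP = ∑ η, F (ext η) * P.real {..}`; `choose` the sequences of `IsLimit`, `tendsto_finset_sum`.
`loc_fld`: `f` has bounded support, so only `ht ω x` with `|x.1|, |x.2| ≤ R` matter (`integral_congr_ae` / `congr`), and each depends on the edges of a box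
(unfold `ht`, `zsum`). `gff_cos`: `m = 1`, `φ x = cos (x 0)` (`BoundedContinuousFunction.ofNormedAddCommGroup` or `mkOfBound`), real part of
`ProbabilityTheory.charFun_multivariateGaussian` at the vector `EuclideanSpace.single 0 1`. -/

open MeasureTheory Filter Topology Vale.Agent.P152

noncomputable section

namespace Vale.Agent.P167

/-- Extension of a configuration of `S`. -/
def limExt (S : Finset (ℤ × ℤ × Bool)) (η : S → Bool) : Cfg ℤ ℤ :=
  fun e => if h : e ∈ S then η ⟨e, h⟩ else false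

theorem lim_dec {F : Cfg ℤ ℤ → ℝ} {S : Finset (ℤ × ℤ × Bool)}
    (hS : ∀ ω ω', (∀ e ∈ S, ω e = ω' e) → F ω = F ω') (ω : Cfg ℤ ℤ) :
    F ω = ∑ η : S → Bool, if ∀ e ∈ S, ω e = limExt S η e then F (limExt S η) else 0 := by
  rw [Finset.sum_eq_single (fun e : S => ω e)]
  · have : ∀ e ∈ S, ω e = limExt S (fun e : S => ω e) e := fun e he => by simp [limExt, he]
    rw [if_pos this]
    exact hS _ _ this
  · intro η _ hne
    refine if_neg fun h => hne (funext fun e => ?_)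
    have := h e e.2
    simp only [limExt, e.2, dif_pos] at this
    exact this.symm
  · simp

theorem lim_tE {F : Cfg ℤ ℤ → ℝ} {S : Finset (ℤ × ℤ × Bool)}
    (hS : ∀ ω ω', (∀ e ∈ S, ω e = ω' e) → F ω = F ω') (c : ℝ) (M L : ℕ) [NeZero M] [NeZero L] :
    tE c M L F = ∑ η : S → Bool, F (limExt S η) * torP c M L S (limExt S η) := by
  unfold tE torP
  simp only [← mul_div_assoc, ← Finset.sum_div, Finset.mul_sum]
  rw [Finset.sum_comm]
  congr 1
  refine Finset.sum_congr rfl fun ω _ => ?_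
  rw [lim_dec hS (lft ω), Finset.mul_sum]
  refine Finset.sum_congr rfl fun η _ => ?_
  by_cases h : ∀ e ∈ S, lft ω e = limExt S η e
  · rw [if_pos h, if_pos (by exact h), mul_comm]
  · rw [if_neg h, if_neg (by exact h), mul_zero, mul_zero]

theorem lim_int {F : Cfg ℤ ℤ → ℝ} {S : Finset (ℤ × ℤ × Bool)}
    (hS : ∀ ω ω', (∀ e ∈ S, ω e = ω' e) → F ω = F ω') (P : Measure (Cfg ℤ ℤ))
    [IsProbabilityMeasure P] : ∫ ω, F ω ∂P =
      ∑ η : S → Bool, F (limExt S η) * P.real {ω | ∀ e ∈ S, ω e = limExt S η e} := by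
  have m : ∀ η : Cfg ℤ ℤ, MeasurableSet {ω : Cfg ℤ ℤ | ∀ e ∈ S, ω e = η e} := fun η => by
    have : {ω : Cfg ℤ ℤ | ∀ e ∈ S, ω e = η e} = ⋂ e ∈ S, (fun ω : Cfg ℤ ℤ => ω e) ⁻¹' {η e} := by
      ext ω
      simp
    rw [this]
    exact Finset.measurableSet_biInter S fun e _ => measurable_pi_apply e (measurableSet_singleton _)
  have e : F = fun ω => ∑ η : S → Bool,
      {ω : Cfg ℤ ℤ | ∀ e ∈ S, ω e = limExt S η e}.indicator (fun _ => F (limExt S η)) ω := by
    funext ω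
    rw [lim_dec hS ω]
    refine Finset.sum_congr rfl fun η _ => ?_
    by_cases h : ∀ e ∈ S, ω e = limExt S η e
    · rw [if_pos h, Set.indicator_of_mem (by exact h)]
    · rw [if_neg h, Set.indicator_of_notMem (by exact h)]
  conv_lhs => rw [e]
  rw [integral_finsetSum _ fun η _ => (integrable_const _).indicator (m _)]
  refine Finset.sum_congr rfl fun η _ => ?_
  rw [integral_indicator_const _ (m _), smul_eq_mul, mul_comm]

theorem lim_floor {δ R t : ℝ} (hδ : 0 < δ) (h : |t| ≤ R) :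
    ⌊t / δ⌋ ∈ Finset.Icc ⌊-R / δ⌋ ⌊R / δ⌋ :=
  Finset.mem_Icc.2 ⟨Int.floor_mono (div_le_div_of_nonneg_right (abs_le.1 h).1 hδ.le),
    Int.floor_mono (div_le_div_of_nonneg_right (abs_le.1 h).2 hδ.le)⟩

theorem lim_loc {c : ℝ} {P : Measure (Cfg ℤ ℤ)} [IsProbabilityMeasure P] (h : IsLimit c P) {F : Cfg ℤ ℤ → ℝ}
    (hF : Loc F) : ∃ a : ℕ → ℝ, (∀ l, Tendsto (fun M => tE c (M + 1) (2 * l + 2) F) atTop (𝓝 (a l))) ∧
      Tendsto a atTop (𝓝 (∫ ω, F ω ∂P)) := by
  obtain ⟨S, hS⟩ := hF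
  choose a h1 h2 using h S
  refine ⟨fun l => ∑ η : S → Bool, F (limExt S η) * a (limExt S η) l, fun l => ?_, ?_⟩
  · simp only [lim_tE hS]
    exact tendsto_finsetSum _ fun η _ => (h1 _ l).const_mul _
  · rw [lim_int hS]
    exact tendsto_finsetSum _ fun η _ => (h2 _).const_mul _

theorem loc_fld {δ : ℝ} (hδ : 0 < δ) {f : ℂ → ℝ} (hf : Test f) : Loc (fld δ f) := by
  choose S hS using loc_ht
  obtain ⟨R, hR⟩ := hf.2.1.isCompact.isBounded.subset_closedBall (0 : ℂ)
  refine ⟨(Finset.Icc ⌊-R / δ⌋ ⌊R / δ⌋ ×ˢ Finset.Icc ⌊-R / δ⌋ ⌊R / δ⌋).biUnion S, fun ω ω' h => ?_⟩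
  unfold fld
  congr 1
  funext z
  by_cases hz : f z = 0
  · rw [hz, mul_zero, mul_zero]
  · have n : ‖z‖ ≤ R := mem_closedBall_zero_iff.1 (hR (subset_tsupport f hz))
    exact congrArg (· * f z) <| hS (⌊z.re / δ⌋, ⌊z.im / δ⌋) ω ω' fun e he => h e (Finset.mem_biUnion.2 ⟨_,
      Finset.mem_product.2 ⟨lim_floor hδ ((Complex.abs_re_le_norm z).trans n),
        lim_floor hδ ((Complex.abs_im_le_norm z).trans n)⟩, he⟩)

theorem gff_cos {P : Measure (Cfg ℤ ℤ)} {σ : ℝ} (h : ToGFF P σ) {f : ℂ → ℝ} (hf : Test f) :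
    Tendsto (fun δ => ∫ ω, Real.cos (fld δ f ω) ∂P) (𝓝[>] 0) (𝓝 (Real.exp (-(σ ^ 2 * cov f f) / 2))) := by
  obtain ⟨hp, ht⟩ := h 1 (fun _ => f) fun _ => hf
  have c : Continuous fun x : EuclideanSpace ℝ (Fin 1) => Real.cos (x 0) := by fun_prop
  have k := ht (BoundedContinuousFunction.ofNormedAddCommGroup _ c 1 fun x => by
    rw [Real.norm_eq_abs]
    exact Real.abs_cos_le_one _)
  simp only [BoundedContinuousFunction.coe_ofNormedAddCommGroup] at k
  have e := ProbabilityTheory.charFun_multivariateGaussian (μ := 0) hp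
    (EuclideanSpace.single 0 1)
  set G := ProbabilityTheory.multivariateGaussian (0 : EuclideanSpace ℝ (Fin 1))
    (Matrix.of fun _ _ : Fin 1 => σ ^ 2 * cov f f) with hG
  have i : Integrable (fun x : EuclideanSpace ℝ (Fin 1) => Complex.exp ((x 0 : ℝ) * Complex.I)) G :=
    Integrable.of_bound (by fun_prop) 1 (Eventually.of_forall fun x =>
      (Complex.norm_exp_ofReal_mul_I _).le)
  have e2 : ∫ x, Complex.exp ((x 0 : ℝ) * Complex.I) ∂G =
      ((Real.exp (-(σ ^ 2 * cov f f) / 2) : ℝ) : ℂ) := by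
    rw [charFun_apply] at e
    simp only [EuclideanSpace.inner_single_right, one_mul, conj_trivial] at e
    rw [e]
    simp [Matrix.mulVec, dotProduct, neg_div]
  have e3 := integral_re i
  simp only [RCLike.re_to_complex, Complex.exp_ofReal_mul_I_re] at e3
  rw [e2, Complex.ofReal_re] at e3
  rwa [e3] at k

end Vale.Agent.P167
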