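import Vale.Agent.P167.BkC
import Vale.Agent.P167.Lim
import Vale.Agent.P152.Main

/-! Assembly. -/

open MeasureTheory Filter Topology Vale.Agent.P152

noncomputable section

namespace Vale.Agent.P167

theorem main (q : ℝ) (h0 : 0 < q) (h4 : q ≤ 4) : ∃ σ > 0, ∀ f, Test f →
    ∃ (a : ℝ → ℕ → ℝ) (b : ℝ → ℝ),
      (∀ δ > 0, ∀ l, Tendsto (fun m => avg q (2 * m + 2) (2 * l + 2) δ f) atTop (𝓝 (a δ l))) ∧
      (∀ δ > 0, Tendsto (a δ) atTop (𝓝 (b δ))) ∧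
      Tendsto b (𝓝[>] 0) (𝓝 (Real.exp (-(σ ^ 2 * cov f f) / 2))) := by
  have hq : 0 ≤ √q / 2 := by positivity
  have k0 := Real.arccos_nonneg (√q / 2)
  have k1 := Real.arccos_le_pi_div_two.2 hq
  have c0 : √2 ≤ 2 * Real.cos (Real.arccos (√q / 2) / 2) := by
    have := Real.cos_le_cos_of_nonneg_of_le_pi (x := Real.arccos (√q / 2) / 2) (y := Real.pi / 4)
      (by linarith) (by linarith [Real.pi_pos]) (by linarith)
    rw [Real.cos_pi_div_four] at this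
    linarith
  obtain ⟨P, hP, hlim, σ, hσ, hG⟩ := P152.main _ c0 (by linarith [Real.cos_le_one (Real.arccos (√q / 2) / 2)])
  refine ⟨σ, hσ, fun f hf => ?_⟩
  have key : ∀ δ : ℝ, ∃ a : ℕ → ℝ, 0 < δ →
      (∀ l, Tendsto (fun m => avg q (2 * m + 2) (2 * l + 2) δ f) atTop (𝓝 (a l))) ∧
        Tendsto a atTop (𝓝 (∫ ω, Real.cos (fld δ f ω) ∂P)) := fun δ => by
    by_cases hδ : 0 < δ
    · obtain ⟨a, ha, hb⟩ := lim_loc hlim ((loc_fld hδ hf).comp Real.cos)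
      refine ⟨a, fun _ => ⟨fun l => ?_, hb⟩⟩
      have ht : Tendsto (fun m : ℕ => 2 * m + 1) atTop atTop :=
        tendsto_atTop_mono (fun m => by simp only [id]; omega) tendsto_id
      refine ((ha l).comp ht).congr fun m => ?_
      exact (avg_eq (M := 2 * m + 2) (L := 2 * l + 2) ⟨m + 1, by ring⟩ ⟨l + 1, by ring⟩ h0 h4 hδ hf).symm
    · exact ⟨fun _ => 0, fun h => absurd h hδ⟩
  choose a ha using key
  exact ⟨a, _, fun δ hδ => (ha δ hδ).1, fun δ hδ => (ha δ hδ).2, gff_cos hG hf⟩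

end Vale.Agent.P167
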