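import Vale.Agent.P167.Eul
import Vale.Agent.P167.Main

/-! Assembly with the random-cluster weights. -/

open Filter Topology Vale.Agent.P152

namespace Vale.Agent.P167

theorem main2 (q : ℝ) (h0 : 0 < q) (h4 : q ≤ 4) : ∃ σ > 0, ∀ f, Test f →
    ∃ (a : ℝ → ℕ → ℝ) (b : ℝ → ℝ),
      (∀ δ > 0, ∀ l, Tendsto (fun m => avgF q (2 * m + 2) (2 * l + 2) δ f) atTop (𝓝 (a δ l))) ∧
      (∀ δ > 0, Tendsto (a δ) atTop (𝓝 (b δ))) ∧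
      Tendsto b (𝓝[>] 0) (𝓝 (Real.exp (-(σ ^ 2 * cov f f) / 2))) := by
  obtain ⟨σ, hσ, h⟩ := main q h0 h4
  refine ⟨σ, hσ, fun f hf => ?_⟩
  obtain ⟨a, b, h1, h2⟩ := h f hf
  refine ⟨a, b, fun δ hδ l => (h1 δ hδ l).congr fun m => ?_, h2⟩
  exact (avgF_eq (M := 2 * m + 2) (L := 2 * l + 2) ⟨m + 1, by ring⟩ ⟨l + 1, by ring⟩ h0 δ f).symm

end Vale.Agent.P167
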