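import Vale.Agent.P167.Defs

/-! Local facts on the torus.
`ev_cast`: `ZMod.val_intCast`, `Int.emod_emod_of_dvd`; every element of `ZMod M` is an integer cast (`ZMod.intCast_surjective`), which gives the shifts.
`mem_pair`: `Quot.sound`. `arr_ice`: cases on `s (x, y)`, `ev x y`. `col_const`: sum `arr_ice` over `y` (`Equiv.sum_comp (Equiv.subRight 1)`), then induction on a natural
number representative; the same for rows. -/

open Vale.Agent.P152

noncomputable section

namespace Vale.Agent.P167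

variable {M L : ℕ} [NeZero M] [NeZero L]

theorem ev_cast (hM : Even M) (hL : Even L) (x y : ℤ) :
    ev (x : ZMod M) (y : ZMod L) = decide ((x + y) % 2 = 0) := by
  have h1 : (((x : ZMod M).val : ℕ) : ℤ) = x % M := ZMod.val_intCast x
  have h2 : (((y : ZMod L).val : ℕ) : ℤ) = y % L := ZMod.val_intCast y
  have h3 : x % M % 2 = x % 2 := Int.emod_emod_of_dvd x (by exact_mod_cast hM.two_dvd)
  have h4 : y % L % 2 = y % 2 := Int.emod_emod_of_dvd y (by exact_mod_cast hL.two_dvd)
  rw [← h1] at h3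
  rw [← h2] at h4
  unfold ev
  rw [decide_eq_decide]
  omega

theorem ev_left (hM : Even M) (hL : Even L) (x : ZMod M) (y : ZMod L) : ev (x - 1) y = !ev x y := by
  obtain ⟨a, rfl⟩ := ZMod.intCast_surjective x
  obtain ⟨b, rfl⟩ := ZMod.intCast_surjective y
  rw [show (a : ZMod M) - 1 = ((a - 1 : ℤ) : ZMod M) by push_cast; rfl, ev_cast hM hL,
    ev_cast hM hL, ← decide_not, decide_eq_decide]
  omega

theorem ev_down (hM : Even M) (hL : Even L) (x : ZMod M) (y : ZMod L) : ev x (y - 1) = !ev x y := by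
  obtain ⟨a, rfl⟩ := ZMod.intCast_surjective x
  obtain ⟨b, rfl⟩ := ZMod.intCast_surjective y
  rw [show (b : ZMod L) - 1 = ((b - 1 : ℤ) : ZMod L) by push_cast; rfl, ev_cast hM hL,
    ev_cast hM hL, ← decide_not, decide_eq_decide]
  omega

theorem mk_pair (s : Conf M L) (x : ZMod M) (y : ZMod L) :
    if s (x, y) = ev x y then
      (Quot.mk _ (x - 1, y, true) : Loop s) = Quot.mk _ (x, y, false) ∧
        (Quot.mk _ (x, y, true) : Loop s) = Quot.mk _ (x, y - 1, false)
    else (Quot.mk _ (x - 1, y, true) : Loop s) = Quot.mk _ (x, y - 1, false) ∧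
        (Quot.mk _ (x, y, true) : Loop s) = Quot.mk _ (x, y, false) := by
  split_ifs with h
  · exact ⟨Quot.sound ⟨x, y, by rw [if_pos h]; exact Or.inl ⟨rfl, rfl⟩⟩,
      Quot.sound ⟨x, y, by rw [if_pos h]; exact Or.inr ⟨rfl, rfl⟩⟩⟩
  · exact ⟨Quot.sound ⟨x, y, by rw [if_neg h]; exact Or.inl ⟨rfl, rfl⟩⟩,
      Quot.sound ⟨x, y, by rw [if_neg h]; exact Or.inr ⟨rfl, rfl⟩⟩⟩

theorem mem_vert (s : Conf M L) (l : Loop s) (x : ZMod M) (y : ZMod L) :
    mem s l (x - 1, y, true) + mem s l (x, y, true) = mem s l (x, y - 1, false) + mem s l (x, y, false) := by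
  have h := mk_pair s x y
  unfold mem
  split_ifs at h
  · rw [h.1, h.2, add_comm]
  · rw [h.1, h.2]

theorem arr_ice (hM : Even M) (hL : Even L) (s : Conf M L) (l : Loop s) (x : ZMod M) (y : ZMod L) :
    arr s l (x - 1, y, true) + arr s l (x, y - 1, false) = arr s l (x, y, false) + arr s l (x, y, true) := by
  have h := mk_pair s x y
  simp only [arr, mem, ev_left hM hL, ev_down hM hL]
  split_ifs at h with h0
  · rw [h.1, h.2]
    cases ev x y <;> simp [sg]
  · rw [h.1, h.2]
    cases ev x y <;> simp [sg]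

theorem orbA_const (f : ZMod M → ℤ) (h : ∀ x, f (x - 1) = f x) : (∀ x, f x = 0) ↔ ∑ x, f x = 0 := by
  refine ⟨fun h0 => Finset.sum_eq_zero fun x _ => h0 x, fun h0 => ?_⟩
  have h1 : ∀ n : ℕ, f n = f 0 := fun n => by
    induction n with
    | zero => rw [Nat.cast_zero]
    | succ n ih => rw [← h, Nat.cast_succ, add_sub_cancel_right, ih]
  have h2 : ∀ x, f x = f 0 := fun x => by rw [← ZMod.natCast_zmod_val x, h1]
  rw [Finset.sum_congr rfl fun x _ => h2 x, Finset.sum_const, nsmul_eq_mul, mul_eq_zero] at h0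
  intro x
  rw [h2, h0.resolve_left (Nat.cast_ne_zero.2 Fintype.card_ne_zero)]

theorem contr_iff (hM : Even M) (hL : Even L) (s : Conf M L) (l : Loop s) :
    Contr s l ↔ ∑ x, ∑ y, arr s l (x, y, true) = 0 ∧ ∑ x, ∑ y, arr s l (x, y, false) = 0 := by
  refine and_congr (orbA_const (col s l) fun x => ?_) ?_
  · have h := Finset.sum_congr rfl fun y (_ : y ∈ Finset.univ) => arr_ice hM hL s l x y
    rw [Finset.sum_add_distrib, Finset.sum_add_distrib] at h
    have e := (Equiv.subRight (1 : ZMod L)).sum_comp fun y => arr s l (x, y, false)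
    simp only [Equiv.subRight_apply] at e
    unfold col
    linarith
  · rw [Finset.sum_comm]
    refine orbA_const (fun y => ∑ x, arr s l (x, y, false)) fun y => ?_
    have h := Finset.sum_congr rfl fun x (_ : x ∈ Finset.univ) => arr_ice hM hL s l x y
    rw [Finset.sum_add_distrib, Finset.sum_add_distrib] at h
    have e := (Equiv.subRight (1 : ZMod M)).sum_comp fun x => arr s l (x, y, true)
    simp only [Equiv.subRight_apply] at e
    linarith

end Vale.Agent.P167
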