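import Vale.Agent.P167.OrbA

/-! Every loop has a lift.
Hint: pick an edge `e₀` of `l` (`Quot.exists_rep`), integers `x y` with `e₀ = (x, y, b)` and a state `(p₀, K₀)` with even `p₀.1 + p₀.2 + K₀` and `edg M L p₀ K₀ = e₀`
(four cases, `ev_cast`). Iterate `step (p, K) = (p + d4 K, K - sg (s (cast (p + d4 K))))`. Let `R a b` for states mean: `a.1.1 ≡ b.1.1` in `ZMod M`, `a.1.2 ≡ b.1.2` in `ZMod L`,
`a.2 % 4 = b.2 % 4`. (1) for states of even parity `edg a = edg b ↔ R a b` (cases on the directions; opposite directions on the same edge contradict parity, `ev_cast`/`ev_left`/`ev_down`);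
(2) `R (step a) (step b) ↔ R a b`; if `R a b` then `step` commutes with the translation `b - a`. Pigeonhole (`Finite.exists_ne_map_eq_of_infinite`) and (2) give `n > 0` with
`E n = E 0`; take it minimal (`Nat.find`). (3) `Join s (E k) (E (k + 1)) ∨ Join s (E (k + 1)) (E k)`, so all `E k` lie in `l`; (4) if `Join s e e'` then `e ∈ range E ↔ e' ∈ range E`
(if `e = E k` with `k ≥ 1` by periodicity, then `e'` is `E (k + 1)` or `E (k - 1)`; convenient form: each edge has exactly one `Join` partner at each of its two endpoints,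
or define `nx : Edge → Edge` with `edg (step a) = nx (edg a)` and show `Join s e e' → e' = nx e ∨ e = nx e'`), then `Quot.lift`. -/

open Vale.Agent.P152

noncomputable section

namespace Vale.Agent.P167

variable {M L : ℕ} [NeZero M] [NeZero L]

/-- The next edge along the oriented loop. -/
def obNx (s : Conf M L) (e : Edge M L) : Edge M L :=
  if e.2.2 = true then
    (if ev e.1 e.2.1 = true then
      (if s (e.1 + 1, e.2.1) = true then (e.1 + 1, e.2.1 - 1, false) else (e.1 + 1, e.2.1, false))
    else (if s (e.1, e.2.1) = true then (e.1, e.2.1, false) else (e.1, e.2.1 - 1, false)))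
  else
    (if ev e.1 e.2.1 = true then
      (if s (e.1, e.2.1) = true then (e.1 - 1, e.2.1, true) else (e.1, e.2.1, true))
    else (if s (e.1, e.2.1 + 1) = true then (e.1, e.2.1 + 1, true) else (e.1 - 1, e.2.1 + 1, true)))

/-- The previous edge along the oriented loop. -/
def obPv (s : Conf M L) (e : Edge M L) : Edge M L :=
  if e.2.2 = true then
    (if ev e.1 e.2.1 = true then
      (if s (e.1, e.2.1) = true then (e.1, e.2.1 - 1, false) else (e.1, e.2.1, false))
    else (if s (e.1 + 1, e.2.1) = true then (e.1 + 1, e.2.1, false) else (e.1 + 1, e.2.1 - 1, false)))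
  else
    (if ev e.1 e.2.1 = true then
      (if s (e.1, e.2.1 + 1) = true then (e.1 - 1, e.2.1 + 1, true) else (e.1, e.2.1 + 1, true))
    else (if s (e.1, e.2.1) = true then (e.1, e.2.1, true) else (e.1 - 1, e.2.1, true)))

theorem ob_ev_right (hM : Even M) (hL : Even L) (x : ZMod M) (y : ZMod L) : ev (x + 1) y = !ev x y := by
  have h := ev_left hM hL (x + 1) y
  rw [add_sub_cancel_right] at h
  rw [h, Bool.not_not]

theorem ob_ev_up (hM : Even M) (hL : Even L) (x : ZMod M) (y : ZMod L) : ev x (y + 1) = !ev x y := by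
  have h := ev_down hM hL x (y + 1)
  rw [add_sub_cancel_right] at h
  rw [h, Bool.not_not]

theorem ob_pv_nx (hM : Even M) (hL : Even L) (s : Conf M L) (e : Edge M L) : obPv s (obNx s e) = e := by
  obtain ⟨x, y, b⟩ := e
  have h1 := ev_left hM hL
  have h2 := ev_down hM hL
  have h3 := ob_ev_right hM hL
  have h4 := ob_ev_up hM hL
  cases b <;> cases he : ev x y
  · cases hs : s (x, y + 1) <;> simp [obNx, obPv, he, hs, h1, h4]
  · cases hs : s (x, y) <;> simp [obNx, obPv, he, hs, h1]
  · cases hs : s (x, y) <;> simp [obNx, obPv, he, hs, h2]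
  · cases hs : s (x + 1, y) <;> simp [obNx, obPv, he, hs, h2, h3]

theorem ob_nx_inj (hM : Even M) (hL : Even L) (s : Conf M L) : Function.Injective (obNx s) :=
  Function.LeftInverse.injective (ob_pv_nx hM hL s)

theorem ob_mk_nx (hM : Even M) (hL : Even L) (s : Conf M L) (e : Edge M L) :
    (Quot.mk _ (obNx s e) : Loop s) = Quot.mk _ e := by
  obtain ⟨x, y, b⟩ := e
  have h3 := ob_ev_right hM hL
  have h4 := ob_ev_up hM hL
  cases b <;> cases he : ev x y
  · have h := mk_pair s x (y + 1)
    rw [h4, he, add_sub_cancel_right] at h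
    cases hs : s (x, y + 1)
    · rw [hs] at h
      simp only [Bool.not_false, Bool.false_eq_true, if_false] at h
      simp only [obNx, he, hs, Bool.false_eq_true, if_false]
      exact h.1
    · rw [hs] at h
      simp only [Bool.not_false, if_true] at h
      simp only [obNx, he, hs, Bool.false_eq_true, if_false, if_true]
      exact h.2
  · have h := mk_pair s x y
    rw [he] at h
    cases hs : s (x, y)
    · rw [hs] at h
      simp only [Bool.false_eq_true, if_false] at h
      simp only [obNx, he, hs, Bool.false_eq_true, if_false, if_true]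
      exact h.2
    · rw [hs] at h
      simp only [if_true] at h
      simp only [obNx, he, hs, Bool.false_eq_true, if_false, if_true]
      exact h.1
  · have h := mk_pair s x y
    rw [he] at h
    cases hs : s (x, y)
    · rw [hs] at h
      simp only [if_true] at h
      simp only [obNx, he, hs, Bool.false_eq_true, if_false, if_true]
      exact h.2.symm
    · rw [hs] at h
      simp only [Bool.true_eq_false, if_false] at h
      simp only [obNx, he, hs, Bool.false_eq_true, if_false, if_true]
      exact h.2.symm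
  · have h := mk_pair s (x + 1) y
    rw [h3, he, add_sub_cancel_right] at h
    cases hs : s (x + 1, y)
    · rw [hs] at h
      simp only [Bool.not_true, if_true] at h
      simp only [obNx, he, hs, Bool.false_eq_true, if_false, if_true]
      exact h.1.symm
    · rw [hs] at h
      simp only [Bool.not_true, Bool.true_eq_false, if_false] at h
      simp only [obNx, he, hs, if_true]
      exact h.1.symm

theorem ob_join (hM : Even M) (hL : Even L) (s : Conf M L) (e e' : Edge M L) (h : Join s e e') :
    e' = obNx s e ∨ e = obNx s e' := by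
  have h1 := ev_left hM hL
  have h2 := ev_down hM hL
  obtain ⟨x, y, h⟩ := h
  cases he : ev x y <;> cases hs : s (x, y) <;> rw [he, hs] at h <;>
    simp only [Bool.false_eq_true, Bool.true_eq_false, if_false, if_true] at h <;>
    rcases h with ⟨rfl, rfl⟩ | ⟨rfl, rfl⟩ <;> simp [obNx, he, hs, h1, h2]

/-- One step of the lifted loop. -/
def obSt (s : Conf M L) (a : (ℤ × ℤ) × ℤ) : (ℤ × ℤ) × ℤ :=
  (a.1 + d4 a.2, a.2 - sg (s (((a.1 + d4 a.2).1 : ZMod M), ((a.1 + d4 a.2).2 : ZMod L))))

theorem ob_mod4 (k : ℤ) : k % 4 = 0 ∨ k % 4 = 1 ∨ k % 4 = 2 ∨ k % 4 = 3 := by omega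

theorem ob_sg (b : Bool) : sg b = 1 ∨ sg b = -1 := by cases b <;> simp [sg]

theorem ob_par (s : Conf M L) (a : (ℤ × ℤ) × ℤ) (ha : (a.1.1 + a.1.2 + a.2) % 2 = 0) :
    ((obSt s a).1.1 + (obSt s a).1.2 + (obSt s a).2) % 2 = 0 := by
  obtain ⟨⟨x, y⟩, k⟩ := a
  simp only [obSt] at ha ⊢
  generalize s _ = b
  rcases ob_sg b with hb | hb <;> rw [hb] <;>
    rcases ob_mod4 k with h | h | h | h <;> simp [d4, h] <;> omega

theorem ob_edg_st (hM : Even M) (hL : Even L) (s : Conf M L) (a : (ℤ × ℤ) × ℤ)
    (ha : (a.1.1 + a.1.2 + a.2) % 2 = 0) :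
    edg M L (obSt s a).1 (obSt s a).2 = obNx s (edg M L a.1 a.2) := by
  obtain ⟨⟨x, y⟩, k⟩ := a
  have h1 := ev_left hM hL
  have h2 := ev_down hM hL
  have he := ev_cast hM hL x y
  simp only at ha
  rcases ob_mod4 k with h | h | h | h
  · have hp : (x + y) % 2 = 0 := by omega
    have k1 : (k - 1) % 4 = 3 := by omega
    have k2 : (k + 1) % 4 = 1 := by omega
    simp only [hp, decide_true] at he
    cases hs : s ((x : ZMod M) + 1, (y : ZMod L)) <;> simp [obSt, obNx, edg, d4, sg, h, k1, k2, he, hs]
  · have hp : ¬ (x + y) % 2 = 0 := by omega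
    have k1 : (k - 1) % 4 = 0 := by omega
    have k2 : (k + 1) % 4 = 2 := by omega
    simp only [hp, decide_false] at he
    cases hs : s ((x : ZMod M), (y : ZMod L) + 1) <;> simp [obSt, obNx, edg, d4, sg, h, k1, k2, he, hs]
  · have hp : (x + y) % 2 = 0 := by omega
    have k1 : (k - 1) % 4 = 1 := by omega
    have k2 : (k + 1) % 4 = 3 := by omega
    simp only [hp, decide_true] at he
    cases hs : s ((x : ZMod M) - 1, (y : ZMod L)) <;>
      simp [obSt, obNx, edg, d4, sg, h, k1, k2, he, hs, h1, ← sub_eq_add_neg]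
  · have hp : ¬ (x + y) % 2 = 0 := by omega
    have k1 : (k - 1) % 4 = 2 := by omega
    have k2 : (k + 1) % 4 = 0 := by omega
    simp only [hp, decide_false] at he
    cases hs : s ((x : ZMod M), (y : ZMod L) - 1) <;>
      simp [obSt, obNx, edg, d4, sg, h, k1, k2, he, hs, h2, ← sub_eq_add_neg]

theorem ob_edg_eq (hM : Even M) (hL : Even L) (a b : (ℤ × ℤ) × ℤ)
    (ha : (a.1.1 + a.1.2 + a.2) % 2 = 0) (hb : (b.1.1 + b.1.2 + b.2) % 2 = 0)
    (h : edg M L a.1 a.2 = edg M L b.1 b.2) :
    (a.1.1 : ZMod M) = (b.1.1 : ZMod M) ∧ (a.1.2 : ZMod L) = (b.1.2 : ZMod L) ∧ a.2 % 4 = b.2 % 4 := by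
  obtain ⟨⟨x, y⟩, k⟩ := a
  obtain ⟨⟨x', y'⟩, k'⟩ := b
  have h1 := ev_left hM hL
  have h2 := ev_down hM hL
  have he := ev_cast hM hL x y
  have he' := ev_cast hM hL x' y'
  simp only at ha hb h ⊢
  have hq : ev (edg M L (x, y) k).1 (edg M L (x, y) k).2.1 = ev (edg M L (x', y') k').1 (edg M L (x', y') k').2.1 := by
    rw [h]
  have p0 : k % 2 = 0 → ev (x : ZMod M) (y : ZMod L) = true := fun hk => by
    rw [he]; exact decide_eq_true (by omega)
  have p1 : k % 2 = 1 → ev (x : ZMod M) (y : ZMod L) = false := fun hk => by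
    rw [he]; exact decide_eq_false (by omega)
  have q0 : k' % 2 = 0 → ev (x' : ZMod M) (y' : ZMod L) = true := fun hk => by
    rw [he']; exact decide_eq_true (by omega)
  have q1 : k' % 2 = 1 → ev (x' : ZMod M) (y' : ZMod L) = false := fun hk => by
    rw [he']; exact decide_eq_false (by omega)
  rcases ob_mod4 k with g | g | g | g <;> rcases ob_mod4 k' with g' | g' | g' | g' <;>
    simp [edg, g, g', h1, h2] at h hq ⊢ <;>
    first
    | exact h
    | (rw [p0 (by omega), q0 (by omega)] at hq; simp at hq)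
    | (rw [p1 (by omega), q1 (by omega)] at hq; simp at hq)

theorem ob_shift (s : Conf M L) (D : ℤ × ℤ) (t : ℤ) (h1 : (D.1 : ZMod M) = 0) (h2 : (D.2 : ZMod L) = 0)
    (ht : t % 4 = 0) (a : (ℤ × ℤ) × ℤ) :
    obSt s (a.1 + D, a.2 + t) = ((obSt s a).1 + D, (obSt s a).2 + t) := by
  have hd : d4 (a.2 + t) = d4 a.2 := by
    have : (a.2 + t) % 4 = a.2 % 4 := by omega
    simp only [d4, this]
  have e1 : (((a.1 + D + d4 a.2).1 : ℤ) : ZMod M) = (((a.1 + d4 a.2).1 : ℤ) : ZMod M) := by
    simp only [Prod.fst_add]; push_cast; rw [h1, add_zero]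
  have e2 : (((a.1 + D + d4 a.2).2 : ℤ) : ZMod L) = (((a.1 + d4 a.2).2 : ℤ) : ZMod L) := by
    simp only [Prod.snd_add]; push_cast; rw [h2, add_zero]
  simp only [obSt, hd, e1, e2]
  exact Prod.ext (add_right_comm _ _ _) (by simp only; ring)

theorem ob_start (hM : Even M) (hL : Even L) (e : Edge M L) :
    ∃ a : (ℤ × ℤ) × ℤ, (a.1.1 + a.1.2 + a.2) % 2 = 0 ∧ edg M L a.1 a.2 = e := by
  obtain ⟨x, y, b⟩ := e
  obtain ⟨x, rfl⟩ := ZMod.intCast_surjective x
  obtain ⟨y, rfl⟩ := ZMod.intCast_surjective y
  rcases Int.emod_two_eq_zero_or_one (x + y) with h | h <;> cases b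
  · exact ⟨((x, y + 1), 3), by simp only; omega, by simp [edg]⟩
  · exact ⟨((x, y), 0), by simp only; omega, by simp [edg]⟩
  · exact ⟨((x, y), 1), by simp only; omega, by simp [edg]⟩
  · exact ⟨((x + 1, y), 2), by simp only; omega, by simp [edg]⟩

theorem exists_orb (hM : Even M) (hL : Even L) (s : Conf M L) (l : Loop s) :
    ∃ n p K D t, Orb s l n p K D t := by
  obtain ⟨e0, rfl⟩ := Quot.exists_rep l
  obtain ⟨a, ha, hae⟩ := ob_start hM hL e0
  have hinj := ob_nx_inj hM hL s
  have hper : e0 ∈ Function.periodicPts (obNx s) := hinj.mem_periodicPts e0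
  have hn : 0 < Function.minimalPeriod (obNx s) e0 := Function.minimalPeriod_pos_of_mem_periodicPts hper
  have hN : (obNx s)^[Function.minimalPeriod (obNx s) e0] e0 = e0 := Function.iterate_minimalPeriod
  generalize hn' : Function.minimalPeriod (obNx s) e0 = n at hn hN
  have hpar : ∀ k, (((obSt s)^[k] a).1.1 + ((obSt s)^[k] a).1.2 + ((obSt s)^[k] a).2) % 2 = 0 := by
    intro k
    induction k with
    | zero => exact ha
    | succ k ih => rw [Function.iterate_succ_apply']; exact ob_par s _ ih
  have hE : ∀ k, edg M L ((obSt s)^[k] a).1 ((obSt s)^[k] a).2 = (obNx s)^[k] e0 := by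
    intro k
    induction k with
    | zero => exact hae
    | succ k ih => rw [Function.iterate_succ_apply', Function.iterate_succ_apply', ob_edg_st hM hL s _ (hpar k), ih]
  have hR := ob_edg_eq hM hL ((obSt s)^[n] a) a (hpar n) ha (by rw [hE n, hN, hae])
  have hS : ∀ k, (obSt s)^[k + n] a =
      (((obSt s)^[k] a).1 + (((obSt s)^[n] a).1 - a.1), ((obSt s)^[k] a).2 + (((obSt s)^[n] a).2 - a.2)) := by
    intro k
    induction k with
    | zero => simp
    | succ k ih =>
      rw [Nat.succ_add, Function.iterate_succ_apply', ih, Function.iterate_succ_apply']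
      refine ob_shift s _ _ ?_ ?_ ?_ _
      · simp only [Prod.fst_sub]; push_cast; rw [hR.1, sub_self]
      · simp only [Prod.snd_sub]; push_cast; rw [hR.2.1, sub_self]
      · have := hR.2.2; omega
  have hP : ∀ k, (obNx s)^[k + n] e0 = (obNx s)^[k] e0 := fun k => by
    rw [Function.iterate_add_apply, hN]
  refine ⟨n, fun k => ((obSt s)^[k] a).1, fun k => ((obSt s)^[k] a).2, ((obSt s)^[n] a).1 - a.1,
    ((obSt s)^[n] a).2 - a.2, hn, ?_, ?_, hpar, ?_, ?_, ?_, ?_, ?_⟩
  · intro k
    simp only [Function.iterate_succ_apply']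
    rfl
  · intro k
    simp only [Function.iterate_succ_apply']
    rfl
  · intro k
    simp only [hS k]
  · intro k
    simp only [hS k]
  · intro k k' h1 h2 h
    simp only [hE] at h
    obtain ⟨j, rfl⟩ := Nat.exists_eq_add_of_lt h1
    rw [add_assoc, Function.iterate_add_apply] at h
    have h3 : Function.IsPeriodicPt (obNx s) (j + 1) e0 := ((hinj.iterate k) h).symm
    have h4 := h3.minimalPeriod_le (Nat.succ_pos j)
    omega
  · intro k
    simp only [hE, hP]
  · intro e
    simp only [hE]
    constructor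
    · intro h
      have hI : ∀ u, (∃ k, u = (obNx s)^[k] e0) ↔ (∃ k, obNx s u = (obNx s)^[k] e0) := by
        intro u
        constructor
        · rintro ⟨k, rfl⟩
          exact ⟨k + 1, (Function.iterate_succ_apply' _ _ _).symm⟩
        · rintro ⟨k, hk⟩
          refine ⟨k + n - 1, hinj ?_⟩
          rw [hk, ← Function.iterate_succ_apply' (obNx s), ← hP k]
          exact congrArg (fun m => (obNx s)^[m] e0) (by omega)
      have hJ : ∀ u v, Join s u v → (∃ k, u = (obNx s)^[k] e0) = (∃ k, v = (obNx s)^[k] e0) := by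
        intro u v huv
        rcases ob_join hM hL s u v huv with rfl | rfl
        · exact propext (hI u)
        · exact propext (hI v).symm
      have h5 : (∃ k, e = (obNx s)^[k] e0) = (∃ k, e0 = (obNx s)^[k] e0) :=
        congrArg (Quot.lift (fun u => ∃ k, u = (obNx s)^[k] e0) hJ) h
      obtain ⟨k, hk⟩ : ∃ k, e = (obNx s)^[k] e0 := by rw [h5]; exact ⟨0, rfl⟩
      refine ⟨k % n, Nat.mod_lt _ hn, ?_⟩
      rw [hk, ← hn', Function.iterate_mod_minimalPeriod_eq]
    · rintro ⟨k, -, rfl⟩
      induction k with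
      | zero => rfl
      | succ k ih => rw [Function.iterate_succ_apply', ob_mk_nx hM hL, ih]

end Vale.Agent.P167
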