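import Vale.Agent.P167.Stmt

/-! The random-cluster weights on the torus. -/

noncomputable section

namespace Vale.Agent.P167

variable {M L : ℕ} [NeZero M] [NeZero L]

/-- The two primal vertices joined by an open edge of the torus. -/
def Adj (s : Conf M L) (a b : ZMod M × ZMod L) : Prop :=
  ∃ x y, s (x, y) = true ∧
    if ev x y = true then a = (x, y) ∧ b = (x - 1, y - 1) else a = (x - 1, y) ∧ b = (x, y - 1)

/-- The two primal vertices joined by an open edge of the periodic planar configuration. -/
def AdjZ (s : Conf M L) (a b : ℤ × ℤ) : Prop :=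
  ∃ x y : ℤ, s ((x : ZMod M), (y : ZMod L)) = true ∧
    if (x + y) % 2 = 0 then a = (x, y) ∧ b = (x - 1, y - 1) else a = (x - 1, y) ∧ b = (x, y - 1)

/-- The planar cluster of a vertex. -/
def Cl (s : Conf M L) (a : ℤ × ℤ) : Set (ℤ × ℤ) := {b | Relation.EqvGen (AdjZ s) a b}

/-- The number of contractible clusters: clusters of primal vertices of the torus whose planar lifts are finite. -/
def kc (s : Conf M L) : ℕ :=
  Nat.card {C : Quot (Adj s) // ∃ a : ℤ × ℤ, (a.1 + a.2) % 2 = 0 ∧
    Quot.mk _ ((a.1 : ZMod M), (a.2 : ZMod L)) = C ∧ (Cl s a).Finite}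

/-- The weight `p ^ open * (1 - p) ^ closed * q ^ clusters` at the self-dual point, with the weight of non-contractible loops. -/
def fw (q : ℝ) (s : Conf M L) : ℝ :=
  (√q / (1 + √q)) ^ (Finset.univ.filter fun v => s v = true).card *
    (1 - √q / (1 + √q)) ^ (Finset.univ.filter fun v => s v = false).card * q ^ kc s * (Bal s).card

/-- The expectation of the observable. -/
def avgF (q : ℝ) (M L : ℕ) [NeZero M] [NeZero L] (δ : ℝ) (f : ℂ → ℝ) : ℝ :=
  (∑ s : Conf M L, fw q s * obs q δ f s) / ∑ s : Conf M L, fw q s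

end Vale.Agent.P167
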