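import Vale.Agent.P152.Stmt

/-! The loop representation of the self-dual random-cluster model on a torus.
The loops live on the medial lattice `ZMod M × ZMod L` (`M`, `L` even). Its faces `(x, y)` (bottom-left corner) with `x + y`
even are the vertices of the primal lattice, the other faces are the dual vertices, and each medial vertex is a primal edge. -/

open MeasureTheory Vale.Agent.P152

noncomputable section

namespace Vale.Agent.P167

/-- Edge configurations: the primal edge through a medial vertex is open (`true`) or closed. -/
abbrev Conf (M L : ℕ) := ZMod M × ZMod L → Bool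

/-- Medial edges: `(x, y, true)` goes from `(x, y)` to `(x + 1, y)`, `(x, y, false)` from `(x, y)` to `(x, y + 1)`. -/
abbrev Edge (M L : ℕ) := ZMod M × ZMod L × Bool

variable {M L : ℕ} [NeZero M] [NeZero L]

/-- The face `(x, y)` is a primal vertex. -/
def ev (x : ZMod M) (y : ZMod L) : Bool := decide ((x.val + y.val) % 2 = 0)

/-- At each medial vertex the four medial edges are joined in two pairs, without crossing the open primal or dual edge. -/
def Join (s : Conf M L) (e e' : Edge M L) : Prop :=
  ∃ x y, if s (x, y) = ev x y then
      (e = (x - 1, y, true) ∧ e' = (x, y, false)) ∨ (e = (x, y, true) ∧ e' = (x, y - 1, false))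
    else (e = (x - 1, y, true) ∧ e' = (x, y - 1, false)) ∨ (e = (x, y, true) ∧ e' = (x, y, false))

/-- The loops of a configuration. -/
abbrev Loop (s : Conf M L) := Quot (Join s)

instance loopFintype (s : Conf M L) : Fintype (Loop s) := Fintype.ofFinite _

open Classical

/-- The indicator that the edge `e` belongs to the loop. -/
def mem (s : Conf M L) (l : Loop s) (e : Edge M L) : ℤ := if Quot.mk _ e = l then 1 else 0

/-- The direction (`1` right or up, `-1` left or down) in which the loop, oriented with the primal vertices on its left,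
traverses the edge `e`; zero if `e` is not on the loop. -/
def arr (s : Conf M L) (l : Loop s) (e : Edge M L) : ℤ := mem s l e * sg (ev e.1 e.2.1 == e.2.2)

/-- Left turns minus right turns of the loop: it turns right at open edges and left at closed edges. -/
def turn (s : Conf M L) (l : Loop s) : ℤ :=
  ∑ v : ZMod M × ZMod L, -sg (s v) * (mem s l (v.1 - 1, v.2, true) + mem s l (v.1, v.2, true))

/-- Net number of crossings of a column of horizontal edges. -/
def col (s : Conf M L) (l : Loop s) (x : ZMod M) : ℤ := ∑ y, arr s l (x, y, true)

/-- Contractible loops: no net crossing of any column or row. -/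
def Contr (s : Conf M L) (l : Loop s) : Prop :=
  (∀ x, col s l x = 0) ∧ ∀ y, ∑ x, arr s l (x, y, false) = 0

/-- Signed number of crossings of the loop by the dual path from the face `(0, 0)` to `(x.1, 0)` to `x`. -/
def wind (s : Conf M L) (l : Loop s) (x : ℤ × ℤ) : ℤ :=
  zsum (fun j => arr s l ((x.1 : ZMod M), ((j + 1 : ℤ) : ZMod L), true)) x.2 -
    zsum (fun i => arr s l (((i + 1 : ℤ) : ZMod M), 0, false)) x.1

/-- The winding function at mesh `δ` tested against `f`. -/
def mass (δ : ℝ) (f : ℂ → ℝ) (s : Conf M L) (l : Loop s) : ℝ :=
  ∫ z : ℂ, (wind s l (⌊z.re / δ⌋, ⌊z.im / δ⌋) : ℝ) * f z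

/-- Orientations of the non-contractible loops with no net flux through any column. -/
def Bal (s : Conf M L) : Finset ({l : Loop s // ¬Contr s l} → Bool) :=
  Finset.univ.filter fun ε => ∀ x, ∑ l, sg (ε l) * col s l.1 x = 0

/-- The weight of a configuration: `√q` for each contractible loop. -/
def lw (q : ℝ) (s : Conf M L) : ℝ :=
  √q ^ (Finset.univ.filter (Contr s)).card * (Bal s).card

/-- The loop observable. -/
def obs (q δ : ℝ) (f : ℂ → ℝ) (s : Conf M L) : ℝ :=
  (∏ l ∈ Finset.univ.filter (Contr s),
    Real.cos (Real.arccos (√q / 2) + turn s l / 4 * mass δ f s l) / (√q / 2)) *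
    ((∑ ε ∈ Bal s, Real.cos (∑ l, sg (ε l) * mass δ f s l.1)) / (Bal s).card)

/-- The expectation of the observable. -/
def avg (q : ℝ) (M L : ℕ) [NeZero M] [NeZero L] (δ : ℝ) (f : ℂ → ℝ) : ℝ :=
  (∑ s : Conf M L, lw q s * obs q δ f s) / ∑ s : Conf M L, lw q s

end Vale.Agent.P167
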