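import Vale.Agent.P167.Def2

/-! The winding number is constant along open edges.
`orb_t4`: `p (n + 1) - p n = p 1 - p 0` gives `d4 (K 0 + t) = d4 (K 0)` (`orbd_cases`).
`wn_up`: telescope `ψ k = if (p k).2 = y ∧ (p k).1 ≤ x then 1 else 0` along the closed path (`Finset.sum_range_sub`, `perp 0`); termwise check by cases on `K k % 4` with `step`.
`wn_adj`: for `x + y` even go from `(x, y)` to `(x, y - 1)` (`wn_up`) to `(x - 1, y - 1)` (definition); by `par` only east steps from `(x, y)` and north steps from `(x, y - 1)` occur, and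
step `k + 1` is east from `(x, y)` iff step `k` is north from `(x, y - 1)` (`step`, `rot`, the vertex is open so the turn is to the right); shift the sum with
`Finset.sum_range_succ`, `Finset.sum_range_succ'`, `perp 0`, `perK 0`, `orb_t4`. For `x + y` odd go from `(x - 1, y)` to `(x, y)` to `(x, y - 1)`: west step from `(x + 1, y)` followed by north step from `(x, y)`. -/

open Vale.Agent.P152

noncomputable section

namespace Vale.Agent.P167

variable {M L : ℕ} [NeZero M] [NeZero L] {s : Conf M L} {l : Loop s} {n : ℕ} {p : ℕ → ℤ × ℤ} {K : ℕ → ℤ}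
  {D : ℤ × ℤ} {t : ℤ}

theorem orb_t4 (h : Orb s l n p K D t) : t % 4 = 0 := by
  have a1 := h.perp 0
  have a2 := h.perp 1
  have a3 := h.step 0
  have a4 := h.step n
  have a5 := h.perK 0
  rw [zero_add] at a1 a3 a5
  rw [add_comm 1 n, a4, a1, a3, a5, add_right_comm (p 0), add_left_inj, add_right_inj] at a2
  rcases orbd_cases (K 0 + t) with ⟨b, c⟩ | ⟨b, c⟩ | ⟨b, c⟩ | ⟨b, c⟩ <;>
    rcases orbd_cases (K 0) with ⟨b', c'⟩ | ⟨b', c'⟩ | ⟨b', c'⟩ | ⟨b', c'⟩ <;>
    rw [c, c', Prod.mk.injEq] at a2 <;> omega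

theorem wna_step (h : Orb s l n p K D t) (k : ℕ) :
    (K k % 4 = 0 ∧ (p (k + 1)).1 = (p k).1 + 1 ∧ (p (k + 1)).2 = (p k).2) ∨
    (K k % 4 = 1 ∧ (p (k + 1)).1 = (p k).1 ∧ (p (k + 1)).2 = (p k).2 + 1) ∨
    (K k % 4 = 2 ∧ (p (k + 1)).1 = (p k).1 - 1 ∧ (p (k + 1)).2 = (p k).2) ∨
    (K k % 4 = 3 ∧ (p (k + 1)).1 = (p k).1 ∧ (p (k + 1)).2 = (p k).2 - 1) := by
  rw [h.step k]
  rcases orbd_cases (K k) with ⟨b, c⟩ | ⟨b, c⟩ | ⟨b, c⟩ | ⟨b, c⟩ <;>
    simp [b, c, sub_eq_add_neg]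

theorem wna_rot (h : Orb s l n p K D t) {x y : ℤ} (hs : s ((x : ZMod M), (y : ZMod L)) = true)
    (k : ℕ) : (p (k + 1)).1 = x → (p (k + 1)).2 = y → K (k + 1) = K k - 1 := by
  intro h1 h2
  rw [h.rot k, h1, h2, hs]
  rfl

theorem wna_tel (h : Orb s l n p K 0 t) (j : ℤ) (q : ℤ × ℤ) :
    ∑ k ∈ Finset.range n, ((if K k % 4 = j ∧ p k = q then (1 : ℤ) else 0) -
      if K (k + 1) % 4 = j ∧ p (k + 1) = q then (1 : ℤ) else 0) = 0 := by
  have a1 := h.perp 0
  have a5 := h.perK 0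
  have a6 := orb_t4 h
  rw [zero_add] at a1 a5
  rw [add_zero] at a1
  have a7 : K n % 4 = K 0 % 4 := by omega
  rw [Finset.sum_range_sub' (fun k => if K k % 4 = j ∧ p k = q then (1 : ℤ) else 0), a1, a7,
    sub_self]

theorem wn_up (h : Orb s l n p K 0 t) (x y : ℤ) : Wn n p K (x, y) - Wn n p K (x, y - 1) =
    ∑ k ∈ Finset.range n, if K k % 4 = 0 ∧ p k = (x, y) then (1 : ℤ) else
      if K k % 4 = 2 ∧ p k = (x + 1, y) then -1 else 0 := by
  have a1 := h.perp 0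
  rw [zero_add, add_zero] at a1
  have e := Finset.sum_range_sub (fun k => if (p k).2 = y ∧ (p k).1 ≤ x then (1 : ℤ) else 0) n
  rw [a1, sub_self] at e
  rw [Wn, Wn, ← Finset.sum_sub_distrib, ← sub_eq_zero, ← Finset.sum_sub_distrib]
  refine (Finset.sum_congr rfl fun k _ => ?_).trans e
  have b := wna_step h k
  simp only [Prod.ext_iff]
  generalize (p k).1 = u, (p k).2 = v, (p (k + 1)).1 = u', (p (k + 1)).2 = v', K k % 4 = j at b ⊢
  rcases b with ⟨rfl, rfl, rfl⟩ | ⟨rfl, rfl, rfl⟩ | ⟨rfl, rfl, rfl⟩ | ⟨rfl, rfl, rfl⟩ <;>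
    split_ifs <;> omega

theorem wn_adj (h : Orb s l n p K 0 t) {a b : ℤ × ℤ} (hab : AdjZ s a b) : Wn n p K a = Wn n p K b := by
  obtain ⟨x, y, hs, hab⟩ := hab
  have hu := wn_up h x y
  split_ifs at hab with hxy
  · obtain ⟨rfl, rfl⟩ := hab
    rw [← sub_eq_zero, ← sub_add_sub_cancel _ (Wn n p K (x, y - 1)), hu, Wn, Wn,
      ← Finset.sum_sub_distrib, ← Finset.sum_add_distrib]
    refine (Finset.sum_congr rfl fun k _ => ?_).trans (wna_tel h 0 (x, y))
    have b := wna_step h k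
    have c := wna_rot h hs k
    have d := h.par k
    simp only [Prod.ext_iff]
    generalize (p k).1 = u, (p k).2 = v, (p (k + 1)).1 = u', (p (k + 1)).2 = v', K k = i,
      K (k + 1) = i' at b c d ⊢
    clear hu h hs
    rcases b with ⟨b, rfl, rfl⟩ | ⟨b, rfl, rfl⟩ | ⟨b, rfl, rfl⟩ | ⟨b, rfl, rfl⟩ <;>
      simp only [b, Int.reduceEq, true_and, false_and, ↓reduceIte] <;> split_ifs <;> omega
  · obtain ⟨rfl, rfl⟩ := hab
    rw [← sub_eq_zero, ← sub_add_sub_cancel _ (Wn n p K (x, y)), hu, Wn, Wn,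
      ← Finset.sum_sub_distrib, ← Finset.sum_add_distrib]
    refine (Finset.sum_congr rfl fun k _ => ?_).trans (wna_tel h 1 (x, y))
    have b := wna_step h k
    have c := wna_rot h hs k
    have d := h.par k
    simp only [Prod.ext_iff]
    generalize (p k).1 = u, (p k).2 = v, (p (k + 1)).1 = u', (p (k + 1)).2 = v', K k = i,
      K (k + 1) = i' at b c d ⊢
    clear hu h hs
    rcases b with ⟨b, rfl, rfl⟩ | ⟨b, rfl, rfl⟩ | ⟨b, rfl, rfl⟩ | ⟨b, rfl, rfl⟩ <;>
      simp only [b, Int.reduceEq, true_and, false_and, ↓reduceIte] <;> split_ifs <;> omega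

theorem wn_cl (h : Orb s l n p K 0 t) {a b : ℤ × ℤ} (hab : b ∈ Cl s a) : Wn n p K a = Wn n p K b := by
  change Relation.EqvGen (AdjZ s) a b at hab
  induction hab with
  | rel a b hab => exact wn_adj h hab
  | refl a => rfl
  | symm a b _ ih => exact ih.symm
  | trans a b c _ _ ih1 ih2 => exact ih1.trans ih2

end Vale.Agent.P167
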