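import Vale.Agent.P167.Def2

/-! Left faces lie in one cluster; the winding number has finite support.
`lf_mem`: induction; at a left turn (closed vertex) the left face does not change, at a right turn (open vertex `p (k + 1)`) the two left faces are joined by `AdjZ` in one of the two orders
(cases on `K k % 4`, parity of the vertex from `par (k + 1)`).
`wn_fin`: bound `|(p k).1|, |(p k).2| ≤ B` for `k < n`; `Wn` vanishes termwise if `a.1 < -B` or `|a.2| > B + 1`; if `a.1 ≥ B` it is the telescoping sum of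
`ψ k = if (p k).2 ≤ a.2 then 1 else 0` along the closed path (`Finset.sum_range_sub`, `perp 0`). -/

open Vale.Agent.P152

noncomputable section

namespace Vale.Agent.P167

variable {M L : ℕ} [NeZero M] [NeZero L] {s : Conf M L} {l : Loop s} {n : ℕ} {p : ℕ → ℤ × ℤ} {K : ℕ → ℤ}
  {D : ℤ × ℤ} {t : ℤ}

theorem wnb_step (h : Orb s l n p K D t) (k : ℕ) :
    Relation.EqvGen (AdjZ s) (lfZ (p k) (K k)) (lfZ (p (k + 1)) (K (k + 1))) := by
  have h1 := h.step k
  have h2 := h.rot k
  have h3 := h.par (k + 1)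
  have c : K k % 4 = 0 ∨ K k % 4 = 1 ∨ K k % 4 = 2 ∨ K k % 4 = 3 := by omega
  obtain ⟨x, y, hq⟩ : ∃ x y, p (k + 1) = (x, y) := ⟨_, _, rfl⟩
  obtain ⟨a, b, hp⟩ : ∃ a b, p k = (a, b) := ⟨_, _, rfl⟩
  rw [hq] at h2 h3
  rw [hq, hp] at h1
  rw [hq, hp]
  cases hs : s ((x : ZMod M), (y : ZMod L))
  · have e : K (k + 1) = K k + 1 := by simpa [hs, sg] using h2
    have : lfZ (a, b) (K k) = lfZ (x, y) (K (k + 1)) := by
      rcases c with c | c | c | c
      all_goals
        have c' : K (k + 1) % 4 = (K k % 4 + 1) % 4 := by omega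
        rw [c] at c'
        simp only [d4, c, Prod.mk_add_mk, Prod.mk.injEq] at h1
        simp [lfZ, c, c'] at h1 ⊢
        omega
    rw [this]
    exact .refl _
  · have e : K (k + 1) = K k - 1 := by simpa [hs, sg] using h2
    have c' : K (k + 1) % 4 = (K k % 4 + 3) % 4 := by omega
    simp only at h3
    rcases c with c | c | c | c <;> rw [c] at c' <;> simp [d4, c] at h1
    · refine .rel _ _ ⟨x, y, hs, ?_⟩
      rw [if_neg (by omega)]
      simp [lfZ, c, c']
      omega
    · refine .symm _ _ (.rel _ _ ⟨x, y, hs, ?_⟩)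
      rw [if_pos (by omega)]
      simp [lfZ, c, c']
      omega
    · refine .symm _ _ (.rel _ _ ⟨x, y, hs, ?_⟩)
      rw [if_neg (by omega)]
      simp [lfZ, c, c']
      omega
    · refine .rel _ _ ⟨x, y, hs, ?_⟩
      rw [if_pos (by omega)]
      simp [lfZ, c, c']
      omega

theorem lf_mem (h : Orb s l n p K D t) (k : ℕ) : lfZ (p k) (K k) ∈ Cl s (lfZ (p 0) (K 0)) := by
  induction k with
  | zero => exact .refl _
  | succ k ih => exact .trans _ _ _ ih (wnb_step h k)

theorem wn_fin (h : Orb s l n p K 0 t) : {a | Wn n p K a ≠ 0}.Finite := by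
  obtain ⟨B, hB⟩ := ((Set.finite_lt_nat n).image fun k => |(p k).1| + |(p k).2|).bddAbove
  have hb : ∀ k ∈ Finset.range n, -B ≤ (p k).1 ∧ (p k).1 ≤ B ∧ -B ≤ (p k).2 ∧ (p k).2 ≤ B :=
    fun k hk => by
      have h1 : |(p k).1| + |(p k).2| ≤ B := hB ⟨k, Finset.mem_range.1 hk, rfl⟩
      have h2 := abs_le.1 (le_trans (le_add_of_nonneg_right (abs_nonneg _)) h1)
      have h3 := abs_le.1 (le_trans (le_add_of_nonneg_left (abs_nonneg _)) h1)
      exact ⟨h2.1, h2.2, h3.1, h3.2⟩
  refine ((Set.finite_Icc (-B) B).prod (Set.finite_Icc (-B - 1) B)).subset fun a ha => ?_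
  by_contra hn
  simp only [Set.mem_prod, Set.mem_Icc, not_and_or, not_le] at hn
  refine ha ?_
  by_cases h1 : B < a.1
  · have e : Wn n p K a = ∑ k ∈ Finset.range n,
        ((if (p (k + 1)).2 ≤ a.2 then 1 else 0) - if (p k).2 ≤ a.2 then (1 : ℤ) else 0) := by
      refine Finset.sum_congr rfl fun k hk => ?_
      have c : K k % 4 = 0 ∨ K k % 4 = 1 ∨ K k % 4 = 2 ∨ K k % 4 = 3 := by omega
      rw [if_pos (by linarith [(hb k hk).2.1]), h.step k]
      rcases c with c | c | c | c <;> simp [d4, c] <;> split_ifs <;> omega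
    rw [e, Finset.sum_range_sub fun k => if (p k).2 ≤ a.2 then (1 : ℤ) else 0]
    have := h.perp 0
    rw [zero_add, add_zero] at this
    rw [this, sub_self]
  · refine Finset.sum_eq_zero fun k hk => ?_
    have := hb k hk
    split_ifs <;> omega

end Vale.Agent.P167
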