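import Vale.Agent.P167.HopS
import Vale.Agent.P167.WnA
import Vale.Agent.P167.WnB

/-! The winding number on the left of a closed loop is `1` if it turns left and `0` if it turns right.
Apply `hopf_sign` to `g k = orbdG (p k) (K k)`, `J k = min (K k) (K (k + 1))` exactly as in the proof of `orb_hopf` (file OrbD); put `m = i + 1`. In the first case `K m % 4 = 0`, in the second `K m % 4 = 2`
(`K (k + 1) = K k ± 1`). Let `(x, y, true)` be the horizontal edge of step `m` and `c = (x, y - 1)`. `Wn c = 0` termwise: a vertical step in row `y - 1` at abscissa `≤ x` has a smaller first `orbdG` coordinate.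
First case: `lfZ = p m = (x, y)` and `wn_up` gives `1` (only `k = m % n` contributes: periodicity of `p`, `K % 4` with `orb_t4`, `inj`, parity excludes the west step). Second case: `lfZ = c`.
Conclude with `lf_mem`, `wn_cl`. -/

open Vale.Agent.P152

noncomputable section

namespace Vale.Agent.P167

variable {M L : ℕ} [NeZero M] [NeZero L] {s : Conf M L} {l : Loop s} {n : ℕ} {p : ℕ → ℤ × ℤ} {K : ℕ → ℤ}
  {D : ℤ × ℤ} {t : ℤ}

theorem wnc_min (h : Orb s l n p K 0 t) : ∃ m, (∀ k, (orbdG (p m) (K m)).1 ≤ (orbdG (p k) (K k)).1) ∧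
    ((t = 4 ∧ K m % 4 = 0) ∨ (t = -4 ∧ K m % 4 = 2)) := by
  have hr : ∀ k, K (k + 1) = K k + 1 ∨ K (k + 1) = K k - 1 := fun k => by
    rw [h.rot k]
    unfold sg
    split_ifs <;> omega
  have hg : ∀ k, orbdG (p (k + 1)) (K (k + 1)) = orbdG (p k) (K k) + d4 (min (K k) (K (k + 1))) :=
    fun k => by rw [h.step k, orbd_step _ (hr k)]
  have hJ : ∀ k, |min (K (k + 1)) (K (k + 1 + 1)) - min (K k) (K (k + 1))| ≤ 1 := fun k => by
    have h1 := hr k
    have h2 := hr (k + 1)
    rw [abs_le]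
    omega
  have hper : ∀ k, min (K (k + n)) (K (k + n + 1)) = min (K k) (K (k + 1)) + t := fun k => by
    rw [Nat.add_right_comm, h.perK, h.perK, min_add_add_right]
  have hd : ∀ k, d4 (K (k + n)) = d4 (K k) := fun k => by
    have h1 := h.step (k + n)
    rw [Nat.add_right_comm, h.perp, h.perp, h.step, add_right_comm] at h1
    exact (add_left_cancel h1).symm
  have hgp : ∀ k, orbdG (p (k + n)) (K (k + n)) = orbdG (p k) (K k) := fun k => by
    simp only [orbdG, hd, h.perp, add_zero]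
  obtain ⟨i, h1, h2⟩ := hopf_sign (g := fun k => orbdG (p k) (K k))
    (J := fun k => min (K k) (K (k + 1))) h.pos hg hJ hgp hper
    fun k k' h1 h2 e => h.inj k k' h1 h2 (orbd_edg e)
  refine ⟨i + 1, h1, ?_⟩
  have a1 := hr i
  have a2 := hr (i + 1)
  omega

omit [NeZero M] [NeZero L] in
theorem wnc_zero {x y : ℤ} (h : ∀ k, x + y ≤ (orbdG (p k) (K k)).1) : Wn n p K (x, y - 1) = 0 := by
  refine Finset.sum_eq_zero fun k _ => ?_
  have h1 := h k
  rcases orbd_cases (K k) with ⟨a, b⟩ | ⟨a, b⟩ | ⟨a, b⟩ | ⟨a, b⟩ <;>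
    simp only [orbdG, b] at h1 <;> dsimp only <;> split_ifs <;> omega

theorem wnc_per (h : Orb s l n p K 0 t) (j k : ℕ) :
    p (k + j * n) = p k ∧ K (k + j * n) % 4 = K k % 4 := by
  have h4 := orb_t4 h
  induction j with
  | zero => simp
  | succ j ih =>
    rw [Nat.succ_mul, ← Nat.add_assoc, h.perp, h.perK, add_zero]
    exact ⟨ih.1, by omega⟩

theorem wnc_one (h : Orb s l n p K 0 t) {m : ℕ} (hm : K m % 4 = 0) :
    Wn n p K ((p m).1, (p m).2) - Wn n p K ((p m).1, (p m).2 - 1) = 1 := by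
  rw [wn_up h]
  obtain ⟨r, hr, e1, e2⟩ : ∃ r, r < n ∧ p r = p m ∧ K r % 4 = 0 := by
    have := wnc_per h (m / n) (m % n)
    rw [Nat.mod_add_div'] at this
    exact ⟨m % n, Nat.mod_lt _ h.pos, this.1.symm, by omega⟩
  rw [Finset.sum_eq_single_of_mem r (Finset.mem_range.2 hr), if_pos ⟨e2, e1⟩]
  intro k hk hne
  have hk' := Finset.mem_range.1 hk
  rw [if_neg, if_neg]
  · rintro ⟨a, b⟩
    have p1 := h.par k
    have p2 := h.par m
    rw [b] at p1
    dsimp only at p1
    omega
  · rintro ⟨a, b⟩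
    have e : edg M L (p k) (K k) = edg M L (p r) (K r) := by
      rw [b, e1]
      simp only [edg, a, e2, if_true]
    rcases lt_or_gt_of_ne hne with c | c
    · exact h.inj k r c (by omega) e
    · exact h.inj r k c (by omega) e.symm

theorem wn_sign (h : Orb s l n p K 0 t) :
    (t = 4 → Wn n p K (lfZ (p 0) (K 0)) = 1) ∧ (t = -4 → Wn n p K (lfZ (p 0) (K 0)) = 0) := by
  obtain ⟨m, h1, h2⟩ := wnc_min h
  rw [wn_cl h (lf_mem h m)]
  rcases h2 with ⟨ht, hm⟩ | ⟨ht, hm⟩
  · refine ⟨fun _ => ?_, fun h' => by omega⟩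
    have e : (orbdG (p m) (K m)).1 = (p m).1 + (p m).2 := by
      simp [orbdG, d4, hm]
    rw [e] at h1
    have a1 := wnc_zero (n := n) h1
    have a2 := wnc_one h hm
    have e2 : lfZ (p m) (K m) = ((p m).1, (p m).2) := by
      simp [lfZ, hm]
    rw [e2]
    omega
  · refine ⟨fun h' => by omega, fun _ => ?_⟩
    have e : (orbdG (p m) (K m)).1 = ((p m).1 - 1) + (p m).2 := by
      simp only [orbdG, d4, hm]
      norm_num
      omega
    rw [e] at h1
    have e2 : lfZ (p m) (K m) = ((p m).1 - 1, (p m).2 - 1) := by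
      simp [lfZ, hm]
    rw [e2]
    exact wnc_zero h1

end Vale.Agent.P167
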